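import Vale.Agent.P281.H949.SA.M
import Mathlib.Analysis.Analytic.Uniqueness

/-!
# P281, theorem GM: the complement of the base locus is dense

Identity theorem for sections of `m K_X` on a connected manifold.
-/

open scoped Manifold ContDiff Topology ComplexOrder
open Set Filter Vale.Agent.P281.J Vale.Agent.P272.K

noncomputable section

namespace Vale.Agent.P281.H368.GM

open Vale.Agent.P299.H223 Vale.Agent.P281.H949.SA Vale.Agent.P281.H713.SA

variable {n : ℕ} {X : Type} [TopologicalSpace X] [ChartedSpace (Cm n) X]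
  [IsManifold 𝓘(ℂ, Cm n) ω X] {m N : ℕ} {S : Fin N → X → ℂ}

/-- a section of `m K_X` which does not vanish identically does not vanish on any open set -/
theorem frequently_ne [ConnectedSpace X] (hs : ∀ b, IsPluri (n := n) m (S b)) {b : Fin N} {x₀ : X}
    (hne : S b x₀ ≠ 0) (x : X) : ∃ᶠ z in 𝓝 x, S b z ≠ 0 := by
  set Z : Set X := {x | ∀ᶠ z in 𝓝 x, S b z = 0} with hZ
  have ho : IsOpen Z := isOpen_iff_mem_nhds.2 fun x hx => eventually_eventually_nhds.2 hx
  have hc : IsClosed Z := by
    refine isClosed_of_closure_subset fun x hx => ?_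
    set e : Chart n X := chartAt (Cm n) x with he
    have hex : At e x := ⟨chart_mem_atlas _ _, mem_chart_source _ _⟩
    obtain ⟨r, hr, hB⟩ := Metric.isOpen_iff.1 e.open_target (e x) hex.mem_target
    have han : AnalyticOnNhd ℂ (fun z => coef m S e z b) (Metric.ball (e x) r) := by
      intro z hz
      have h1 := At.of_target hex.1 (hB hz)
      have h2 := comp_cd (coef_holo hs h1) b
      rw [e.right_inv (hB hz)] at h2
      exact h2.analyticAt
    have hU : e.source ∩ e ⁻¹' Metric.ball (e x) r ∈ 𝓝 x :=
      inter_mem (e.open_source.mem_nhds hex.2)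
        ((e.continuousAt hex.2).preimage_mem_nhds (Metric.ball_mem_nhds _ hr))
    obtain ⟨y, ⟨hy1, hy2⟩, hyZ⟩ := mem_closure_iff_nhds.1 hx _ hU
    have hey : At e y := ⟨hex.1, hy1⟩
    have hT : Tendsto e.symm (𝓝 (e y)) (𝓝 y) := by
      have := e.continuousAt_symm hey.mem_target
      rw [ContinuousAt, hey.left_inv] at this
      exact this
    have hzero : (fun z => coef m S e z b) =ᶠ[𝓝 (e y)] 0 := by
      filter_upwards [hT.eventually hyZ] with z hz
      simp only [coef, hz, zero_div, Pi.zero_apply]
    have hall := han.eqOn_zero_of_preconnected_of_eventuallyEq_zero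
      (convex_ball (e x) r).isPreconnected hy2 hzero
    show ∀ᶠ z in 𝓝 x, S b z = 0
    filter_upwards [hU] with z hz
    have h1 : coef m S e (e z) b = 0 := hall hz.2
    simp only [coef, e.left_inv hz.1, div_eq_zero_iff] at h1
    exact h1.resolve_right (pow_ne_zero _ (dj_ne_zero ⟨hex.1, hz.1⟩))
  have hcl : IsClopen Z := ⟨hc, ho⟩
  rcases isClopen_iff.1 hcl with h | h
  · intro h1
    have h2 : x ∈ Z := by
      filter_upwards [h1] with z hz
      exact not_not.1 hz
    rw [h] at h2
    exact h2
  · have h2 : x₀ ∈ Z := by rw [h]; exact mem_univ _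
    exact absurd h2.self_of_nhds hne

/-- the complement of the base locus is dense -/
theorem dense_ne [ConnectedSpace X] (hs : ∀ b, IsPluri (n := n) m (S b))
    (hne : ∃ b x, S b x ≠ 0) : Dense {x | ∃ b, S b x ≠ 0} := by
  obtain ⟨b, x₀, hx₀⟩ := hne
  intro x
  rw [mem_closure_iff_frequently]
  exact (frequently_ne hs hx₀ x).mono fun z hz => ⟨b, hz⟩

end Vale.Agent.P281.H368.GM
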