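import Vale.Agent.P281.H368.GM.K3
import Vale.Agent.P281.H564.GMH
import Vale.Agent.P281.H787.Imm
import Mathlib.Geometry.Manifold.VectorBundle.Tangent
import Mathlib.Geometry.Manifold.MFDeriv.Tangent

/-! P281, GM-K, part 4: the hypothesis `DegAt` in a chart. -/

open scoped Manifold ContDiff Topology ComplexOrder
open Set Filter Vale.Agent.P281.J Vale.Agent.P272.K Vale.Agent.P299

noncomputable section

namespace Vale.Agent.P281.H368.GM

open Vale.Agent.P281.H167.GM Vale.Agent.P272.K.INT Vale.Agent.P299.H223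
open Vale.Agent.P281.H713.SA Vale.Agent.P281.H949.SA

variable {n : ℕ} {X : Type} [TopologicalSpace X] [ChartedSpace (Cm n) X]
  [IsManifold 𝓘(ℂ, Cm n) ω X]

omit [IsManifold 𝓘(ℂ, Cm n) ω X] in
lemma atc (x : X) : At (chartAt (Cm n) x : Chart n X) x :=
  ⟨chart_mem_atlas _ _, mem_chart_source _ _⟩

lemma De_self (x : X) (v : Cm n) : De (chartAt (Cm n) x : Chart n X) x v = v := by
  have h1 : mfderiv 𝓘(ℂ, Cm n) 𝓘(ℂ, Cm n) (extChartAt 𝓘(ℂ, Cm n) x) x =
      tangentCoordChange 𝓘(ℂ, Cm n) x x x :=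
    mfderiv_chartAt_eq_tangentCoordChange (mem_chart_source _ x)
  have h3 := tangentCoordChange_self (I := 𝓘(ℂ, Cm n)) (x := x) (z := x) (v := v)
    (mem_extChartAt_source x)
  have h4 : (mfderiv 𝓘(ℂ, Cm n) 𝓘(ℂ, Cm n) (extChartAt 𝓘(ℂ, Cm n) x) x : Cm n →L[ℂ] Cm n) v = v := by
    rw [h1]; exact h3
  exact h4

lemma clm_mulVec (A : Cm n →L[ℂ] Cm n) (w : Cm n) :
    A w = (Matrix.of fun p i => A (Pi.single i 1) p : Matrix (Fin n) (Fin n) ℂ).mulVec w := by
  have hw : w = ∑ j, w j • (Pi.single j (1 : ℂ) : Cm n) := by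
    funext j
    simp [Finset.sum_apply, Pi.single_apply]
  conv_lhs => rw [hw]
  rw [map_sum]
  funext p
  rw [Finset.sum_apply, Matrix.mulVec, dotProduct]
  refine Finset.sum_congr rfl fun i _ => ?_
  rw [map_smul, Pi.smul_apply, smul_eq_mul, Matrix.of_apply, mul_comm]

lemma De_change {e e' : Chart n X} {x : X} (h : At e x) (h' : At e' x) (v : Cm n) :
    De e' x v = (jacM e e' x).mulVec (De e x v) := by
  have h0 : (jacM e e' x : Matrix (Fin n) (Fin n) ℂ) = Matrix.of fun p i =>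
      (fderiv ℂ (fun z => e' (e.symm z)) (e x)) (Pi.single i 1) p := by
    ext p i
    rw [jacM_eq, jmat_apply (transition_differentiableAt h h')]
    rfl
  rw [h0, ← clm_mulVec]
  have h1 : mfderiv 𝓘(ℂ, Cm n) 𝓘(ℂ, Cm n) e' x =
      mfderiv 𝓘(ℂ, Cm n) 𝓘(ℂ, Cm n) ((fun z => e' (e.symm z)) ∘ e) x := by
    refine Filter.EventuallyEq.mfderiv_eq ?_
    filter_upwards [e.open_source.mem_nhds h.2] with y hy
    simp only [Function.comp_apply, e.left_inv hy]
  have h2 : MDifferentiableAt 𝓘(ℂ, Cm n) 𝓘(ℂ, Cm n) e x :=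
    (INT.chart_contMDiffAt h).mdifferentiableAt (by simp)
  have h3 : MDifferentiableAt 𝓘(ℂ, Cm n) 𝓘(ℂ, Cm n) (fun z => e' (e.symm z)) (e x) :=
    (transition_differentiableAt h h').mdifferentiableAt
  have h4 : De e' x = (fderiv ℂ (fun z => e' (e.symm z)) (e x)).comp (De e x) := by
    show (mfderiv 𝓘(ℂ, Cm n) 𝓘(ℂ, Cm n) e' x : Cm n →L[ℂ] Cm n) = _
    rw [h1, mfderiv_comp x h3 h2, mfderiv_eq_fderiv]
    rfl
  rw [h4]
  rfl

lemma De_injective {e : Chart n X} {x : X} (h : At e x) :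
    Function.Injective (De e x : Cm n →ₗ[ℂ] Cm n) := by
  rw [injective_iff_map_eq_zero]
  intro v hv
  have h1 := De_change (atc x) h v
  rw [De_self] at h1
  have h2 : De e x v = 0 := hv
  rw [h2] at h1
  have h3 := congrArg (jacM e (chartAt (Cm n) x) x).mulVec h1
  rw [Matrix.mulVec_zero, Matrix.mulVec_mulVec, jacM_mul (atc x) h, Matrix.one_mulVec] at h3
  exact h3.symm

/-- the kernel of a form in two charts -/
lemma ker_change {β : D.FormM n X} (hβ : IsForm β) {e : Chart n X} {x : X} (h : At e x) {w : Cm n}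
    (hw : ∀ j, ∑ i, w i * β (chartAt (Cm n) x) (chartAt (Cm n) x x) i j = 0) (j : Fin n) :
    ∑ i, De e x w i * β e (e x) i j = 0 := by
  set c : Chart n X := chartAt (Cm n) x with hc
  have h1 := hβ e c x h (atc x)
  have h2 : Matrix.vecMul (De e x w) (β e (e x)) = 0 := by
    rw [h1, ← Matrix.vecMul_vecMul, ← Matrix.vecMul_vecMul, Matrix.vecMul_transpose]
    have h3 : (jacM e c x).mulVec (De e x w) = w := by
      rw [← De_change h (atc x), De_self]
    rw [h3]
    have h4 : Matrix.vecMul w (β c (c x)) = 0 := funext hw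
    rw [h4, Matrix.zero_vecMul]
  exact congrFun h2 j

section deg

variable {m N ν : ℕ} {S : Fin N → X → ℂ}

/-- the kernel of the Fubini–Study form of the map `[H]` -/
lemma fsM_ker_of_pker {H : Fin N → X → ℂ} {e : Chart n X} {y : X} (he : At e y)
    (hH : ∀ b, HolAt (Cm n) (H b) y) (hH0 : ∃ b, H b y ≠ 0) {w : Cm n} (hw : PKer n H y w)
    (j : Fin n) : ∑ i, De e y w i * fsM (fun z b => H b (e.symm z)) (e y) i j = 0 := by
  have hF : ContDiffAt ℂ ω (fun z b => H b (e.symm z)) (e y) :=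
    contDiffAt_pi.2 fun b => Vale.Agent.P281.H564.holAt_chart he (hH b)
  obtain ⟨b₀, hb₀⟩ := hH0
  have h0 : (fun b => H b (e.symm (e y))) ≠ 0 := by
    intro h
    exact hb₀ (by have := congrFun h b₀; rwa [he.left_inv] at this)
  refine (fsM_ker hF h0 (De e y w)).2 ⟨dif (Cm n) (H b₀) y w / H b₀ y, ?_⟩ j
  have h1 : ∀ b, fderiv ℂ (fun z => fun b => H b (e.symm z)) (e y) (De e y w) b =
      dif (Cm n) (H b) y w := by
    intro b
    rw [Vale.Agent.P281.H787.dif_eq he (hH b)]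
    have := (hasFDerivAt_pi'.1 (hF.differentiableAt (by simp)).hasFDerivAt b).fderiv
    rw [this]
    rfl
  funext b
  rw [h1, Pi.smul_apply, smul_eq_mul, he.left_inv]
  have h2 := hw b₀ b
  field_simp
  linear_combination h2

/-- **the quadratic form vanishes on the divisor** -/
lemma Qf_zero_of_deg {θ β : D.FormM n X} (hβ : IsForm β) {e : Chart n X} {y : X} (he : At e y)
    (hβp : (β e (e y)).PosSemidef) (hθp : (θ e (e y)).PosSemidef) (hr : (θ e (e y)).rank ≤ ν)
    {H : Fin N → X → ℂ} {g : X → ℂ} (hH : ∀ b, HolAt (Cm n) (H b) y) (hH0 : ∃ b, H b y ≠ 0)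
    (hg : HolAt (Cm n) g y) {c : ℂ} (hθ : θ e (e y) = c • fsM (fun z b => H b (e.symm z)) (e y))
    (hd : DegAt n ν H g β y) :
    Qf n ν (β e (e y)) (θ e (e y)) (dh (fun z => g (e.symm z)) (e y)) = 0 := by
  have hg1 : ∀ w, dif (Cm n) g y w = 0 →
      ∑ i, De e y w i * dh (fun z => g (e.symm z)) (e y) i = 0 := by
    intro w hw
    rw [dh_apply, ← Vale.Agent.P281.H787.dif_eq he hg]
    exact hw
  have hθ1 : ∀ w, PKer n H y w → ∀ j, ∑ i, De e y w i * θ e (e y) i j = 0 := by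
    intro w hw j
    have h1 := fsM_ker_of_pker he hH hH0 hw j
    rw [hθ]
    have h2 : ∑ i, De e y w i * (c • fsM (fun z b => H b (e.symm z)) (e y)) i j =
        c * ∑ i, De e y w i * fsM (fun z b => H b (e.symm z)) (e y) i j := by
      rw [Finset.mul_sum]
      refine Finset.sum_congr rfl fun i _ => ?_
      rw [Matrix.smul_apply, smul_eq_mul]
      ring
    rw [h2, h1, mul_zero]
  rcases hd with ⟨w, hw0, hw1, hw2, hw3⟩ | ⟨K, hK, hKw⟩
  · refine Qf_zero_of_ker hβp hθp hr (w := De e y w) ?_ (hg1 w hw1) (ker_change hβ he hw3)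
      (hθ1 w hw2)
    intro h0
    exact hw0 (De_injective he (by rw [map_zero]; exact h0))
  · set L : Cm n →ₗ[ℂ] Cm n := (De e y : Cm n →ₗ[ℂ] Cm n) with hL
    have h1 : Module.finrank ℂ (K.map L) = Module.finrank ℂ K :=
      (Submodule.equivMapOfInjective L (De_injective he) K).finrank_eq.symm
    refine Qf_zero_of_sub hβp hθp hr (K := K.map L) (by rw [h1]; exact hK) ?_ ?_
    · rintro _ ⟨w, hw, rfl⟩
      exact hg1 w (hKw w hw).1
    · rintro _ ⟨w, hw, rfl⟩
      exact hθ1 w (hKw w hw).2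

end deg

end Vale.Agent.P281.H368.GM
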