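import Vale.Agent.P281.H368.GM.K6

/-! P281, GM-K, part 7: the theorem. -/

open scoped Manifold ContDiff Topology ComplexOrder
open Set Filter Vale.Agent.P281.J Vale.Agent.P272.K Vale.Agent.P272.K.AMP Vale.Agent.P299

noncomputable section

namespace Vale.Agent.P281.H368.GM

open Vale.Agent.P281.H167.GM Vale.Agent.P299.H223
open Vale.Agent.P281.H713.SA Vale.Agent.P281.H949.SA
open Vale.Agent.P272.K.INT (intX IsClosedForm IsDensity lag)
open Vale.Agent.P299.H882 (J)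

variable {n : ℕ} {X : Type} [TopologicalSpace X] [ChartedSpace (Cm n) X]
  [IsManifold 𝓘(ℂ, Cm n) ω X] {m N ν : ℕ} {S : Fin N → X → ℂ} {φ : Chart n X → Cm n → ℝ}
  {ρ : X → ℝ} {θ β χ : D.FormM n X}

/-- the data of the growth theorem -/
structure Data (n m ν : ℕ) {X : Type} [TopologicalSpace X] [ChartedSpace (Cm n) X] {N : ℕ}
    (S : Fin N → X → ℂ) (φ : Chart n X → Cm n → ℝ) (ρ : X → ℝ) (θ β : D.FormM n X) : Prop where
  hS : IsMoving n m S
  hφ : IsCanonicalMetric φ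
  hρ : SmoothFn (n := n) ρ
  hρ0 : ∀ x, 0 ≤ ρ x
  hρS : ∀ x, ρ x = 0 ↔ ∀ b, S b x = 0
  hθ : IsClosedForm θ
  hβ : IsClosedForm β
  hθp : ∀ e x, At e x → (θ e (e x)).PosSemidef
  hβp : ∀ e x, At e x → (β e (e x)).PosSemidef
  hθφ : ∀ e x, At e x → 0 < ρ x → θ e (e x) = cHess (phiD φ m ρ 0 e) (e x)
  hρH : ∀ e x, At e x → ρ x * Real.exp (m * φ e (e x)) = nsq (coef m S e (e x))
  hν : ∀ e x, At e x → (θ e (e x)).rank ≤ ν
  hdeg : IsDegFix n m ν S β

namespace Data

variable (h : Data n m ν S φ ρ θ β)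

include h

/-- near every point `ρ` is positive somewhere -/
lemma freq [ConnectedSpace X] {e : Chart n X} {x : X} (hx : At e x) :
    ∃ᶠ z in 𝓝 (e x), 0 < ρ (e.symm z) := by
  have h1 := Vale.Agent.P281.H564.frequently_chart hx
    (Vale.Agent.P281.H564.frequently_ne h.hS.sec h.hS.ne x)
  refine h1.mono fun z hz => lt_of_le_of_ne (h.hρ0 _) fun h0 => ?_
  obtain ⟨b, hb⟩ := hz
  exact hb ((h.hρS _).1 h0.symm b)

omit [IsManifold 𝓘(ℂ, Cm n) ω X] in
lemma mpos : (0 : ℝ) < m := by exact_mod_cast h.hS.pos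

/-- the value of `F_a` off the base locus -/
lemma DF_eq (a : ℕ) {δ : ℝ} (hδ : 0 < δ) {e : Chart n X} {x : X} (hx : At e x) (hρx : 0 < ρ x) :
    DF a φ m ρ β θ δ e (e x) = (m : ℝ)⁻¹ * (δ * ρ x / (ρ x + δ) ^ 2) *
      Fa n a (β e (e x)) (θ e (e x)) (rk1 (dd (fun y => Real.log (ρ (e.symm y))) (e x))) := by
  rw [DF, Bd_eq h.hS.pos h.hφ h.hρ hδ hx hρx (h.hθφ e x hx hρx), Fa_smul]

lemma DF_zero [ConnectedSpace X] {a : ℕ} (ha : ν < a) {δ : ℝ} (hδ : 0 < δ) {e : Chart n X} {x : X}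
    (hx : At e x) : DF a φ m ρ β θ δ e (e x) = 0 := by
  have hD := isDensity_DF a h.hφ h.hρ h.hρ0 h.hθ h.hβ hδ (m := m)
  have hc := hD.cont e x hx
  have key : ∃ᶠ z in 𝓝 (e x), DF a φ m ρ β θ δ e z = 0 := by
    refine ((h.freq hx).and_eventually hx.nhds_target).mono ?_
    rintro z ⟨hz, hzt⟩
    have hzA : At e (e.symm z) := At.of_target hx.1 hzt
    have h1 := h.DF_eq a hδ hzA hz
    rw [Fa_eq_zero (h.hβp e _ hzA) (h.hθp e _ hzA) (rk1_psd _) (h.hν e _ hzA) ha, mul_zero,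
      e.right_inv hzt] at h1
    exact h1
  exact le_antisymm (le_of_frequently hc continuousAt_const (key.mono fun z hz => hz.le))
    (le_of_frequently continuousAt_const hc (key.mono fun z hz => hz.ge))

lemma DF_nonneg [ConnectedSpace X] {δ : ℝ} (hδ : 0 < δ) {e : Chart n X} {x : X} (hx : At e x) :
    0 ≤ DF ν φ m ρ β θ δ e (e x) := by
  have hD := isDensity_DF ν h.hφ h.hρ h.hρ0 h.hθ h.hβ hδ (m := m)
  refine le_of_frequently continuousAt_const (hD.cont e x hx) ?_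
  refine ((h.freq hx).and_eventually hx.nhds_target).mono ?_
  rintro z ⟨hz, hzt⟩
  have hzA : At e (e.symm z) := At.of_target hx.1 hzt
  have h1 := h.DF_eq ν hδ hzA hz
  rw [e.right_inv hzt] at h1
  rw [h1]
  have h2 := Fa_nonneg (h.hβp e _ hzA) (h.hθp e _ hzA)
    (rk1_psd (dd (fun y => Real.log (ρ (e.symm y))) (e (e.symm z)))) (h.hν e _ hzA)
  rw [e.right_inv hzt] at h2
  have h3 := h.mpos
  have h4 := hz.le
  positivity

/-- the uniform bound near a point -/
lemma nhds_bound [ConnectedSpace X] (hχ : IsHermitian χ) (x : X) : ∃ C : ℝ, 0 ≤ C ∧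
    ∀ᶠ y in 𝓝 x, 0 < ρ y → ∀ e, At e y → ∀ δ : ℝ, 0 < δ →
      DF ν φ m ρ β θ δ e (e y) ≤ C * (δ / (ρ y + δ)) * (χ e (e y)).det.re := by
  obtain ⟨C, hC⟩ := exists_local_bound h.hS h.hφ h.hρ h.hρ0 h.hρS h.hθ h.hβ h.hθp h.hβp h.hθφ
    h.hρH h.hν h.hdeg x
  set c : Chart n X := chartAt (Cm n) x with hc
  have hx : At c x := atc x
  have hdet : ContinuousAt (fun z => (χ c z).det.re) (c x) := by
    have h1 : ContDiffAt ℝ ∞ (fun z => (χ c z).det) (c x) :=
      INT.contDiffAt_det (hχ.smooth c x hx)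
    exact (Complex.continuous_re.continuousAt).comp h1.continuousAt
  have hdp : 0 < (χ c (c x)).det.re := hχ.det_re_pos hx
  set d : ℝ := (χ c (c x)).det.re / 2 with hd
  have hd0 : 0 < d := half_pos hdp
  have hdet' : ∀ᶠ z in 𝓝 (c x), d < (χ c z).det.re :=
    hdet.eventually (lt_mem_nhds (half_lt_self hdp))
  have hm := h.mpos
  refine ⟨(m : ℝ)⁻¹ * |C| / d, by positivity, ?_⟩
  filter_upwards [(c.continuousAt hx.2).eventually (hC.and hdet'), c.open_source.mem_nhds hx.2]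
    with y hy hys hρy e he δ hδ
  have hyA : At c y := ⟨hx.1, hys⟩
  have hy1 := hy.1
  rw [c.left_inv hys] at hy1
  have h1 := hy1 hρy
  -- in the chart `c`
  have h2 : DF ν φ m ρ β θ δ c (c y) ≤
      (m : ℝ)⁻¹ * |C| / d * (δ / (ρ y + δ)) * (χ c (c y)).det.re := by
    rw [h.DF_eq ν hδ hyA hρy]
    have h3 : Fa n ν (β c (c y)) (θ c (c y)) (rk1 (dd (fun y => Real.log (ρ (c.symm y))) (c y))) ≤
        |C| := h1.trans (le_abs_self _)
    have h4 : δ * ρ y / (ρ y + δ) ^ 2 ≤ δ / (ρ y + δ) := by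
      rw [div_le_div_iff₀ (by positivity) (by positivity)]
      have : 0 ≤ δ * (ρ y + δ) * δ := by positivity
      nlinarith
    have h5 : (1 : ℝ) ≤ (χ c (c y)).det.re / d := by
      rw [le_div_iff₀ hd0, one_mul]; exact hy.2.le
    have h6 : 0 ≤ δ * ρ y / (ρ y + δ) ^ 2 := by positivity
    have h7 : 0 ≤ δ / (ρ y + δ) := by positivity
    calc (m : ℝ)⁻¹ * (δ * ρ y / (ρ y + δ) ^ 2) * Fa n ν (β c (c y)) (θ c (c y))
          (rk1 (dd (fun y => Real.log (ρ (c.symm y))) (c y)))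
        ≤ (m : ℝ)⁻¹ * (δ * ρ y / (ρ y + δ) ^ 2) * |C| :=
          mul_le_mul_of_nonneg_left h3 (by positivity)
      _ ≤ (m : ℝ)⁻¹ * (δ / (ρ y + δ)) * |C| := by
          refine mul_le_mul_of_nonneg_right (mul_le_mul_of_nonneg_left h4 (by positivity))
            (abs_nonneg _)
      _ ≤ (m : ℝ)⁻¹ * (δ / (ρ y + δ)) * |C| * ((χ c (c y)).det.re / d) :=
          le_mul_of_one_le_right (by positivity) h5
      _ = (m : ℝ)⁻¹ * |C| / d * (δ / (ρ y + δ)) * (χ c (c y)).det.re := by ring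
  -- in the chart `e`
  have hD := isDensity_DF ν h.hφ h.hρ h.hρ0 h.hθ h.hβ hδ (m := m)
  have h8 := hD.change e c y he hyA
  have h9 := (INT.isDensity_det hχ.isForm hχ.smooth).change e c y he hyA
  rw [h8, h9, ← mul_assoc]
  exact mul_le_mul_of_nonneg_right h2 (by positivity)

/-- **the uniform bound** -/
theorem bound [CompactSpace X] [ConnectedSpace X] (hχ : IsHermitian χ) : ∃ C : ℝ, 0 ≤ C ∧
    ∀ δ : ℝ, 0 < δ → ∀ e x, At e x →
      DF ν φ m ρ β θ δ e (e x) ≤ C * (δ / (ρ x + δ)) * (χ e (e x)).det.re := by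
  choose C hC0 hC using fun x => h.nhds_bound hχ x
  obtain ⟨t, -, ht⟩ := isCompact_univ.elim_nhds_subcover
    (fun x => {y | 0 < ρ y → ∀ e, At e y → ∀ δ : ℝ, 0 < δ →
      DF ν φ m ρ β θ δ e (e y) ≤ C x * (δ / (ρ y + δ)) * (χ e (e y)).det.re})
    (fun x _ => hC x)
  have hCs : 0 ≤ ∑ x ∈ t, C x := Finset.sum_nonneg fun x _ => hC0 x
  refine ⟨∑ x ∈ t, C x, hCs, ?_⟩
  have key : ∀ δ : ℝ, 0 < δ → ∀ e x, At e x → 0 < ρ x →
      DF ν φ m ρ β θ δ e (e x) ≤ (∑ x ∈ t, C x) * (δ / (ρ x + δ)) * (χ e (e x)).det.re := by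
    intro δ hδ e x hx hρx
    obtain ⟨i, hi, hxi⟩ := mem_iUnion₂.1 (ht (mem_univ x))
    refine (hxi hρx e hx δ hδ).trans ?_
    refine mul_le_mul_of_nonneg_right (mul_le_mul_of_nonneg_right ?_ (by positivity))
      (hχ.det_re_pos hx).le
    exact Finset.single_le_sum (f := C) (fun x _ => hC0 x) hi
  intro δ hδ e x hx
  have hD := isDensity_DF ν h.hφ h.hρ h.hρ0 h.hθ h.hβ hδ (m := m)
  have hc2 : ContinuousAt (fun z => (∑ x ∈ t, C x) * (δ / (ρ (e.symm z) + δ)) *
      (χ e z).det.re) (e x) := by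
    have h1 : ContinuousAt (fun z => ρ (e.symm z)) (e x) := (h.hρ e x hx).continuousAt
    have h2 : ContinuousAt (fun z => (χ e z).det.re) (e x) :=
      (INT.isDensity_det hχ.isForm hχ.smooth).cont e x hx
    refine (continuousAt_const.mul (continuousAt_const.div (h1.add continuousAt_const) ?_)).mul h2
    have := h.hρ0 (e.symm (e x))
    have h4 : 0 < ρ (e.symm (e x)) + δ := by linarith
    exact h4.ne'
  have h3 := le_of_frequently (hD.cont e x hx) hc2 (by
    refine ((h.freq hx).and_eventually hx.nhds_target).mono ?_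
    rintro z ⟨hz, hzt⟩
    have hzA : At e (e.symm z) := At.of_target hx.1 hzt
    have h1 := key δ hδ e (e.symm z) hzA hz
    rw [e.right_inv hzt] at h1
    exact h1)
  rw [hx.left_inv] at h3
  exact h3

end Data

/-- **GM-K** -/
theorem growthKPart : GrowthKPart := by
  intro n X _ _ _ _ _ _ χ hχ m N S hS φ hφ ρ hρ hρ0 hρS θ β hθ hβ hθp hβp hθφ hρH ν hν hdeg
  have h : Data n m ν S φ ρ θ β :=
    ⟨hS, hφ, hρ, hρ0, hρS, hθ, hβ, hθp, hβp, hθφ, hρH, hν, hdeg⟩
  have hχH := hχ.toIsHermitian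
  have coh : CohPart := Vale.Agent.P281.H227.GMC.cohPart
  set cφ : D.FormM n X := fun e z => cHess (φ e) z with hcφ
  have hcφc : IsClosedForm cφ := INT.isClosedForm_canonical hφ
  -- the polynomial
  set T : Fin (n + 1) → ℝ := fun j => mixX (addF β ((j : ℕ) : ℝ) θ) cφ -
    mixX (addF β ((j : ℕ) : ℝ) θ) θ with hT
  obtain ⟨p, hp, hev⟩ := exists_poly_lag T
  have hT0 : ∀ s : ℝ, p.eval s = mixX (addF β s θ) cφ - mixX (addF β s θ) θ := by
    intro s
    rw [hev, Vale.Agent.P281.H787.mixX_lag hβ hθ hcφc.form hcφc.smooth s,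
      Vale.Agent.P281.H787.mixX_lag hβ hθ hθ.form hθ.smooth s, ← Finset.sum_sub_distrib]
    exact Finset.sum_congr rfl fun j _ => by rw [hT]; ring
  -- the coefficients are limits
  have hlim : ∀ a : ℕ, Tendsto (fun δ : ℝ => intX (DF a φ m ρ β θ δ)) (𝓝[>] 0)
      (𝓝 (p.coeff a)) := by
    intro a
    rw [cw_spec n a hp]
    have h1 : Tendsto (fun δ : ℝ => ∑ l : Fin (n + 1), cw n a l *
        mixX (addF β ((l : ℕ) : ℝ) θ) (Bd φ m ρ θ δ)) (𝓝[>] 0)
        (𝓝 (∑ l : Fin (n + 1), cw n a l * p.eval ((l : ℕ) : ℝ))) := by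
      refine tendsto_finsetSum _ fun l _ => Tendsto.const_mul _ ?_
      rw [hT0]
      exact Vale.Agent.P281.H787.tendsto_mixX_Bd coh hχ hS hφ hρ hρ0 hρS hθ
        (isClosed_addF hβ hθ _)
    refine h1.congr' ?_
    filter_upwards [self_mem_nhdsWithin] with δ hδ
    exact (intX_DF a hφ hρ hρ0 hθ hβ hδ).symm
  have hcoef : ∀ a, ν ≤ a → p.coeff a = 0 := by
    intro a ha
    rcases ha.lt_or_eq with ha | rfl
    · refine tendsto_nhds_unique (hlim a) ?_
      refine tendsto_const_nhds.congr' ?_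
      filter_upwards [self_mem_nhdsWithin] with δ hδ
      rw [INT.intX_congr (D' := fun _ _ => (0 : ℝ)) fun e x hx => h.DF_zero ha hδ hx]
      exact INT.intX_zero.symm
    · obtain ⟨C, hC0, hC⟩ := h.bound hχH
      have hρc : Continuous ρ := sm_continuous hρ
      have hmass : Tendsto (fun δ : ℝ => C * J χ (fun x => δ / (ρ x + δ) * 1)) (𝓝[>] 0)
          (𝓝 0) := by
        have h1 := Vale.Agent.P281.H227.SB.tendsto_mass hχH hρc hρ0 ?_
          (continuous_const (y := (1 : ℝ)))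
        · have := h1.const_mul C
          rwa [mul_zero] at this
        · intro e he
          obtain ⟨b, x, hb⟩ := hS.ne
          refine MeasureTheory.measure_mono_null ?_
            (Vale.Agent.P281.H227.SB.null_S (hS.sec b) ⟨x, hb⟩ he)
          rintro z ⟨hz1, hz2⟩
          exact ⟨hz1, (hρS _).1 hz2 b⟩
      refine tendsto_nhds_unique (hlim ν) (squeeze_zero' ?_ ?_ hmass)
      · filter_upwards [self_mem_nhdsWithin] with δ hδ
        exact INT.intX_nonneg fun e x hx => h.DF_nonneg hδ hx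
      · filter_upwards [self_mem_nhdsWithin] with δ hδ
        have hδ' : (0 : ℝ) < δ := hδ
        rw [← Vale.Agent.P299.H882.J_const_mul]
        refine INT.intX_mono (isDensity_DF ν hφ hρ hρ0 hθ hβ hδ) ?_ fun e x hx => ?_
        · refine Vale.Agent.P299.H882.J_dens (f := fun x => C * (δ / (ρ x + δ) * 1)) hχH ?_
          refine continuous_const.mul ((continuous_const.div (hρc.add continuous_const)
            fun x => ?_).mul continuous_const)
          have h4 : 0 < ρ x + δ := by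
            have := hρ0 x
            linarith
          exact h4.ne'
        · have := hC δ hδ' e x hx
          rw [hx.left_inv]
          simp only [mul_one]
          exact this
  obtain ⟨C₁, hC₁⟩ := le_of_coeff_zero hcoef
  obtain ⟨C₂, hC₂⟩ := Vale.Agent.P281.H564.mixX_growth hβ hθ hβp hθp hν
  refine ⟨C₁ + C₂, fun s hs => ?_⟩
  have h1 := hC₁ s hs
  have h2 := hC₂ s hs
  rw [hT0] at h1
  have h3 : (C₁ + C₂) * s ^ ν / s = C₁ * s ^ ν / s + C₂ * s ^ ν / s := by ring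
  rw [h3]
  linarith

end Vale.Agent.P281.H368.GM
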