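import Vale.Agent.P281.H167.GM.Iface

/-! P281: growth of `K · (β + s θ)^{n-1}` when every component of the fixed divisor is contracted by
`β + θ` or not dominating the image of the moving part. -/

open scoped Manifold ContDiff Topology ComplexOrder
open Set Filter Vale.Agent.P281.J Vale.Agent.P272.K Vale.Agent.P272.K.AMP Vale.Agent.P299
open Vale.Agent.P272.K.INT (intX IsClosedForm)

noncomputable section

namespace Vale.Agent.P281.H368.GM

open Vale.Agent.P281.H167.GM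
open Vale.Agent.P281.H713.SA
open Vale.Agent.P281.H949.SA (coef dj)
open Vale.Agent.P299.H223 (nsq)

/-- The tangent vector `w` at `z` is in the kernel of the differential of the map to projective space
with homogeneous coordinates `H b`. -/
def PKer (n : ℕ) {X : Type} [TopologicalSpace X] [ChartedSpace (Cm n) X] {N : ℕ}
    (H : Fin N → X → ℂ) (z : X) (w : Cm n) : Prop :=
  ∀ b b', H b z * dif (Cm n) (H b') z w = H b' z * dif (Cm n) (H b) z w

/-- At the point `z` of the smooth hypersurface `g = 0`: either a tangent vector `w ≠ 0` of `g = 0` is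
in the kernel of `β` and of the differential of the map `[H]` (`g = 0` is contracted), or the
restriction of `[H]` to `g = 0` has rank `< ν`. -/
def DegAt (n ν : ℕ) {X : Type} [TopologicalSpace X] [ChartedSpace (Cm n) X] {N : ℕ}
    (H : Fin N → X → ℂ) (g : X → ℂ) (β : D.FormM n X) (z : X) : Prop :=
  (∃ w : Cm n, w ≠ 0 ∧ dif (Cm n) g z w = 0 ∧ PKer n H z w ∧
    ∀ j, ∑ i, w i * β (chartAt (Cm n) z) (chartAt (Cm n) z z) i j = 0) ∨
  ∃ K : Submodule ℂ (Cm n), n ≤ ν + Module.finrank ℂ K ∧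
    ∀ w ∈ K, dif (Cm n) g z w = 0 ∧ PKer n H z w

/-- Near a base point of the sections `S b` of `m K_X`: `S b = (∏ g_i ^ a_i) H_b (dz_1 ∧ ... ∧ dz_n)^m`
where the `H_b` have no common zero and the hypersurfaces `g_i = 0` are smooth; each of them is
contracted, or does not dominate the image of the map `[H]`. -/
def IsDegFix (n m ν : ℕ) {X : Type} [TopologicalSpace X] [ChartedSpace (Cm n) X] {N : ℕ}
    (S : Fin N → X → ℂ) (β : D.FormM n X) : Prop :=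
  ∀ x, (∀ b, S b x = 0) → ∃ (r : ℕ) (g : Fin r → X → ℂ) (a : Fin r → ℕ) (H : Fin N → X → ℂ),
    (∀ i, HolAt (Cm n) (g i) x ∧ dif (Cm n) (g i) x ≠ 0) ∧ (∀ b, HolAt (Cm n) (H b) x) ∧
    (∃ b, H b x ≠ 0) ∧ ∀ᶠ z in 𝓝 x, (∀ b, S b z = (∏ i, g i z ^ a i) * H b z *
      ContinuousLinearMap.det (mfderiv 𝓘(ℂ, Cm n) 𝓘(ℂ, Cm n) (chartAt (Cm n) x) z :
        Cm n →L[ℂ] Cm n) ^ m) ∧
      ∀ i, g i z = 0 → DegAt n ν H (g i) β z

/-- **GM-K**: growth of `K · (β + s θ)^{n-1}`, no hypothesis of projectivity. -/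
def GrowthKPart : Prop := ∀ (n : ℕ) (X : Type) [TopologicalSpace X] [T2Space X] [CompactSpace X]
  [ConnectedSpace X] [ChartedSpace (Cm n) X] [IsManifold 𝓘(ℂ, Cm n) ω X]
  (χ : D.FormM n X) (_ : IsKahler χ) (m N : ℕ) (S : Fin N → X → ℂ) (_ : IsMoving n m S)
  (φ : Chart n X → Cm n → ℝ) (_ : IsCanonicalMetric φ) (ρ : X → ℝ) (_ : SmoothFn (n := n) ρ)
  (_ : ∀ x, 0 ≤ ρ x) (_ : ∀ x, ρ x = 0 ↔ ∀ b, S b x = 0)
  (θ β : D.FormM n X) (_ : IsClosedForm θ) (_ : IsClosedForm β)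
  (_ : ∀ e x, At e x → (θ e (e x)).PosSemidef) (_ : ∀ e x, At e x → (β e (e x)).PosSemidef)
  (_ : ∀ e x, At e x → 0 < ρ x → θ e (e x) = cHess (phiD φ m ρ 0 e) (e x))
  (_ : ∀ e x, At e x → ρ x * Real.exp (m * φ e (e x)) = nsq (coef m S e (e x)))
  (ν : ℕ) (_ : ∀ e x, At e x → (θ e (e x)).rank ≤ ν) (_ : IsDegFix n m ν S β),
  ∃ C₁ : ℝ, ∀ s : ℝ, 1 ≤ s →
    mixX (addF β s θ) (fun e z => cHess (φ e) z) ≤ C₁ * s ^ ν / s

/-- `i∂∂̄ (φ + (1/m) log (ρ + δ)) - (ρ / (ρ + δ)) θ - (δ / (ρ + δ)) i∂∂̄ φ` -/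
def Bd {n : ℕ} {X : Type} [TopologicalSpace X] (φ : Chart n X → Cm n → ℝ) (m : ℕ) (ρ : X → ℝ)
    (θ : D.FormM n X) (δ : ℝ) : D.FormM n X := fun e z =>
  cHess (phiD φ m ρ δ e) z - ((ρ (e.symm z) / (ρ (e.symm z) + δ) : ℝ) : ℂ) • θ e z -
    ((δ / (ρ (e.symm z) + δ) : ℝ) : ℂ) • cHess (φ e) z

end Vale.Agent.P281.H368.GM
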