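import Vale.Agent.P281.H368.GM.K2

/-! P281, GM-K, part 3: calculus in `ℂⁿ`. -/

open scoped Manifold ContDiff Topology ComplexOrder
open Set Filter Vale.Agent.P272.K

noncomputable section

namespace Vale.Agent.P281.H368.GM

open Vale.Agent.P281.H167.GM Vale.Agent.P272.K.INT Vale.Agent.P299.H882 Vale.Agent.P299.H223

variable {n : ℕ}

/-- `∂u` for a real function -/
def dd (u : Cm n → ℝ) (z : Cm n) : Fin n → ℂ := fun k => dz k (fun y => ((u y : ℝ) : ℂ)) z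

/-- the differential of a holomorphic function -/
def dh (g : Cm n → ℂ) (z : Cm n) : Fin n → ℂ := fun k => fderiv ℂ g z (Pi.single k 1)

lemma dh_apply (g : Cm n → ℂ) (z w : Cm n) : ∑ i, w i * dh g z i = fderiv ℂ g z w := by
  have hw : w = ∑ j, w j • (Pi.single j (1 : ℂ) : Cm n) := by
    funext j
    simp [Finset.sum_apply, Pi.single_apply]
  conv_rhs => rw [hw]
  rw [map_sum]
  exact Finset.sum_congr rfl fun i _ => by rw [map_smul, smul_eq_mul]; rfl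

lemma dh_ne_zero {g : Cm n → ℂ} {z : Cm n} (h : fderiv ℂ g z ≠ 0) : dh g z ≠ 0 := by
  intro h0
  apply h
  ext1 w
  rw [← dh_apply, h0]
  simp

/-- the Hessian of `log (R + δ)` -/
lemma cHess_log_add {R : Cm n → ℝ} {z : Cm n} {δ : ℝ} (hR : ContDiffAt ℝ 2 R z) (h0 : 0 < R z)
    (hδ : 0 ≤ δ) : cHess (fun y => Real.log (R y + δ)) z =
      ((R z / (R z + δ) : ℝ) : ℂ) • cHess (fun y => Real.log (R y)) z +
        ((δ * R z / (R z + δ) ^ 2 : ℝ) : ℂ) • rk1 (dd (fun y => Real.log (R y)) z) := by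
  have hpos : 0 < R z + δ := by linarith
  have h1 : ContDiffAt ℝ 2 (fun y => R y + δ) z := hR.add contDiffAt_const
  have hd : DifferentiableAt ℝ R z := hR.differentiableAt (by norm_num)
  have h2 : cHess (fun y => R y + δ) z = cHess R z := by
    rw [C2.cHess_add hR contDiffAt_const, C2.cHess_const, add_zero]
  have h3 : ∀ k, dz k (fun y => ((R y + δ : ℝ) : ℂ)) z = dz k (fun y => ((R y : ℝ) : ℂ)) z := by
    intro k
    have := C2.dz_comp_real (ψ := fun s => s + δ) (ψ' := 1) k (by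
      simpa using (hasDerivAt_id (R z)).add_const δ) hd
    simpa using this
  have h4 : ∀ k, dzb k (fun y => ((R y + δ : ℝ) : ℂ)) z = dzb k (fun y => ((R y : ℝ) : ℂ)) z := by
    intro k
    rw [AMP.dzb_real_eq, AMP.dzb_real_eq, h3]
  have h5 : ∀ k, dd (fun y => Real.log (R y)) z k =
      ((R z)⁻¹ : ℂ) * dz k (fun y => ((R y : ℝ) : ℂ)) z := by
    intro k
    have := C2.dz_comp_real (ψ := Real.log) (ψ' := (R z)⁻¹) k (Real.hasDerivAt_log h0.ne') hd
    rw [dd, this]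
    push_cast
    ring
  ext i j
  rw [C2.cHess_log h1 hpos, h2, h3, h4, Matrix.add_apply, Matrix.smul_apply, Matrix.smul_apply,
    C2.cHess_log hR h0, rk1, Matrix.vecMulVec_apply, Pi.star_apply, h5, h5, star_mul',
    AMP.dzb_real_eq]
  have e1 : star ((R z : ℂ)⁻¹) = (R z : ℂ)⁻¹ := by
    rw [← Complex.ofReal_inv, RCLike.star_def, Complex.conj_ofReal]
  rw [e1]
  simp only [RCLike.star_def, smul_eq_mul]
  have hR0 : (R z : ℂ) ≠ 0 := by exact_mod_cast h0.ne'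
  have hRd : (R z : ℂ) + δ ≠ 0 := by exact_mod_cast hpos.ne'
  push_cast
  field_simp
  ring

lemma dd_log {E : Cm n → ℝ} {z : Cm n} (hE : DifferentiableAt ℝ E z) (h0 : E z ≠ 0) :
    dd (fun y => Real.log (E y)) z = ((E z : ℂ)⁻¹) • dd E z := by
  funext k
  have := C2.dz_comp_real (ψ := Real.log) (ψ' := (E z)⁻¹) k (Real.hasDerivAt_log h0) hE
  rw [dd, this, Pi.smul_apply, smul_eq_mul, dd]
  push_cast
  ring

lemma dd_normSq {G : Cm n → ℂ} {z : Cm n} (hG : ContDiffAt ℂ ω G z) :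
    dd (fun y => ‖G y‖ ^ 2) z = (starRingEnd ℂ (G z)) • dh G z := by
  have h1 : ContDiffAt ℂ ω (fun y => fun _ : Fin 1 => G y) z := contDiffAt_pi.2 fun _ => hG
  funext k
  have h2 := dz_nsq h1 k
  simp only [nsq, Finset.univ_unique, Finset.sum_singleton] at h2
  rw [dd, h2, INT.dz_of_holo (hG.differentiableAt (by simp)), Pi.smul_apply, smul_eq_mul, dh, mul_comm]

/-- `∂ log (|G|² E)` -/
lemma dd_log_mul {R : Cm n → ℝ} {G : Cm n → ℂ} {E : Cm n → ℝ} {z : Cm n}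
    (hR : R =ᶠ[𝓝 z] fun y => ‖G y‖ ^ 2 * E y) (hG : ContDiffAt ℂ ω G z) (hG0 : G z ≠ 0)
    (hE : ContDiffAt ℝ 2 E z) (hE0 : 0 < E z) :
    dd (fun y => Real.log (R y)) z = (G z)⁻¹ • dh G z + ((E z : ℂ)⁻¹) • dd E z := by
  have hGr : DifferentiableAt ℝ G z := (hG.differentiableAt (by simp)).restrictScalars ℝ
  have hN : DifferentiableAt ℝ (fun y => ‖G y‖ ^ 2) z := hGr.norm_sq ℝ
  have hN0 : ‖G z‖ ^ 2 ≠ 0 := pow_ne_zero 2 (norm_ne_zero_iff.2 hG0)
  have hEd : DifferentiableAt ℝ E z := hE.differentiableAt (by norm_num)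
  have h1 : (fun y => ((Real.log (R y) : ℝ) : ℂ)) =ᶠ[𝓝 z] fun y =>
      ((Real.log (‖G y‖ ^ 2) : ℝ) : ℂ) + ((Real.log (E y) : ℝ) : ℂ) := by
    filter_upwards [hR, hG.continuousAt.eventually_ne hG0,
      hE.continuousAt.eventually (lt_mem_nhds hE0)] with y h1 h2 h3
    rw [h1, Real.log_mul (pow_ne_zero 2 (norm_ne_zero_iff.2 h2)) h3.ne', Complex.ofReal_add]
  have h2 : ∀ k, dd (fun y => Real.log (R y)) z k =
      dd (fun y => Real.log (‖G y‖ ^ 2)) z k + dd (fun y => Real.log (E y)) z k := by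
    intro k
    rw [dd, C2.dz_congr k h1, C2.dz_add k]
    · rfl
    · exact C2.differentiableAt_ofReal (hN.log hN0)
    · exact C2.differentiableAt_ofReal (hEd.log hE0.ne')
  have h3 : dd (fun y => Real.log (R y)) z =
      dd (fun y => Real.log (‖G y‖ ^ 2)) z + dd (fun y => Real.log (E y)) z := funext h2
  rw [h3, dd_log hN hN0, dd_log hEd hE0.ne', dd_normSq hG, smul_smul]
  congr 2
  rw [← Complex.normSq_eq_norm_sq, Complex.normSq_eq_conj_mul_self, mul_inv, mul_assoc,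
    mul_comm _ ((starRingEnd ℂ) (G z)), ← mul_assoc, inv_mul_cancel₀, one_mul]
  rwa [Ne, map_eq_zero]

/-- the logarithmic differential of a product of powers -/
lemma dh_prod {r : ℕ} {g : Fin r → Cm n → ℂ} (a : Fin r → ℕ) {z : Cm n}
    (hg : ∀ i, DifferentiableAt ℂ (g i) z) (h0 : ∏ i, g i z ^ a i ≠ 0) :
    (∏ i, g i z ^ a i)⁻¹ • dh (fun y => ∏ i, g i y ^ a i) z =
      ∑ i, ((a i : ℂ) / g i z) • dh (g i) z := by
  have h1 : HasFDerivAt (fun y => ∏ i, g i y ^ a i)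
      (∑ i, (∏ j ∈ Finset.univ.erase i, g j z ^ a j) • (((a i : ℂ) * g i z ^ (a i - 1)) •
        fderiv ℂ (g i) z)) z := by
    refine HasFDerivAt.finsetProd fun i _ => ?_
    have := (hg i).hasFDerivAt.pow (a i)
    refine this.congr_fderiv ?_
    rw [nsmul_eq_mul]
  funext k
  rw [Pi.smul_apply, dh, h1.fderiv, Finset.sum_apply]
  simp only [sum_apply, smul_apply, smul_eq_mul, Pi.smul_apply, Finset.mul_sum]
  refine Finset.sum_congr rfl fun i _ => ?_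
  show _ = (a i : ℂ) / g i z * fderiv ℂ (g i) z (Pi.single k 1)
  rcases Nat.eq_zero_or_pos (a i) with h | h
  · rw [h]; simp
  · have hgi : g i z ^ a i ≠ 0 := Finset.prod_ne_zero_iff.1 h0 i (Finset.mem_univ i)
    have hgi' : g i z ≠ 0 := fun h2 => hgi (by rw [h2, zero_pow h.ne'])
    have h2 : g i z ^ a i = g i z ^ (a i - 1) * g i z := by
      rw [← pow_succ]; congr 1; omega
    have h3 : ∏ j ∈ Finset.univ.erase i, g j z ^ a j ≠ 0 :=
      Finset.prod_ne_zero_iff.2 fun j _ => Finset.prod_ne_zero_iff.1 h0 j (Finset.mem_univ j)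
    rw [← Finset.mul_prod_erase Finset.univ _ (Finset.mem_univ i), h2]
    have h4 : g i z ^ (a i - 1) ≠ 0 := pow_ne_zero _ hgi'
    field_simp

lemma contDiffAt_mixD {A B : Cm n → Matrix (Fin n) (Fin n) ℂ} {p : Cm n} {k : WithTop ℕ∞}
    (hA : ∀ i j, ContDiffAt ℝ k (fun z => A z i j) p)
    (hB : ∀ i j, ContDiffAt ℝ k (fun z => B z i j) p) :
    ContDiffAt ℝ k (fun z => mixD (A z) (B z)) p := by
  have h1 : (fun z => mixD (A z) (B z)) = fun z =>
      Complex.reCLM (∑ r, ((A z).updateRow r (B z r)).det) := by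
    funext z
    rw [mixD, ← Vale.Agent.P281.H564.sum_updateRow]
    rfl
  rw [h1]
  refine Complex.reCLM.contDiff.contDiffAt.comp p (ContDiffAt.sum fun r _ => INT.contDiffAt_det
    fun i j => ?_)
  by_cases hi : i = r
  · subst hi
    simp only [Matrix.updateRow_self]
    exact hB i j
  · simp only [Matrix.updateRow_ne hi]
    exact hA i j

lemma contDiffAt_Fa {a : ℕ} {β θ B : Cm n → Matrix (Fin n) (Fin n) ℂ} {p : Cm n}
    {k : WithTop ℕ∞} (hβ : ∀ i j, ContDiffAt ℝ k (fun z => β z i j) p)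
    (hθ : ∀ i j, ContDiffAt ℝ k (fun z => θ z i j) p)
    (hB : ∀ i j, ContDiffAt ℝ k (fun z => B z i j) p) :
    ContDiffAt ℝ k (fun z => Fa n a (β z) (θ z) (B z)) p := by
  refine ContDiffAt.sum fun l _ => contDiffAt_const.mul (contDiffAt_mixD (fun i j => ?_) hB)
  simp only [Matrix.add_apply, Matrix.smul_apply, smul_eq_mul]
  exact (hβ i j).add (contDiffAt_const.mul (hθ i j))

lemma contDiffAt_Qf {ν : ℕ} {β θ : Cm n → Matrix (Fin n) (Fin n) ℂ} {ξ : Cm n → Fin n → ℂ}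
    {p : Cm n} {k : WithTop ℕ∞} (hβ : ∀ i j, ContDiffAt ℝ k (fun z => β z i j) p)
    (hθ : ∀ i j, ContDiffAt ℝ k (fun z => θ z i j) p)
    (hξ : ∀ i, ContDiffAt ℝ k (fun z => ξ z i) p) :
    ContDiffAt ℝ k (fun z => Qf n ν (β z) (θ z) (ξ z)) p := by
  refine contDiffAt_Fa hβ hθ fun i j => ?_
  simp only [rk1, Matrix.vecMulVec_apply, Pi.star_apply]
  exact (hξ i).mul (Complex.conjCLE.contDiff.contDiffAt.comp p (hξ j))

lemma contDiffAt_dh {g : Cm n → ℂ} {p : Cm n} (hg : ContDiffAt ℂ ω g p) (k : Fin n) :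
    ContDiffAt ℂ ω (fun z => dh g z k) p := by
  have h1 : ContDiffAt ℂ ω (fderiv ℂ g) p := hg.fderiv_right (m := ω) (by exact le_top)
  exact h1.clm_apply contDiffAt_const

/-- **the local bound** near a point of the fixed divisor -/
theorem local_bound {ν r : ℕ} {β θ : Cm n → Matrix (Fin n) (Fin n) ℂ} {p : Cm n}
    (hβ : ∀ i j, ContDiffAt ℝ ∞ (fun z => β z i j) p)
    (hθ : ∀ i j, ContDiffAt ℝ ∞ (fun z => θ z i j) p)
    (hpos : ∀ᶠ z in 𝓝 p, (β z).PosSemidef ∧ (θ z).PosSemidef ∧ (θ z).rank ≤ ν)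
    {g : Fin r → Cm n → ℂ} {a : Fin r → ℕ} (hg : ∀ i, ContDiffAt ℂ ω (g i) p)
    (hg' : ∀ i, fderiv ℂ (g i) p ≠ 0) {E : Cm n → ℝ} (hE : ContDiffAt ℝ 2 E p) (hE0 : 0 < E p)
    {R : Cm n → ℝ} (hR : ∀ᶠ z in 𝓝 p, R z = ‖∏ i, g i z ^ a i‖ ^ 2 * E z)
    (h0 : ∀ᶠ z in 𝓝 p, ∀ i, g i z = 0 → Qf n ν (β z) (θ z) (dh (g i) z) = 0) :
    ∃ C : ℝ, ∀ᶠ z in 𝓝 p, 0 < R z →
      Qf n ν (β z) (θ z) (dd (fun y => Real.log (R y)) z) ≤ C := by
  -- each component
  have h1 : ∀ i, ∃ C : ℝ, 0 ≤ C ∧ ∀ᶠ z in 𝓝 p,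
      Qf n ν (β z) (θ z) (dh (g i) z) ≤ C * ‖g i z‖ ^ 2 := by
    intro i
    have hd : ∀ k, ContDiffAt ℝ ∞ (fun z => dh (g i) z k) p := fun k =>
      ((contDiffAt_dh (hg i) k).restrict_scalars ℝ).of_le (by exact le_top)
    have hQ : ContDiffAt ℝ ∞ (fun z => Qf n ν (β z) (θ z) (dh (g i) z)) p :=
      contDiffAt_Qf hβ hθ hd
    by_cases hgi : g i p = 0
    · obtain ⟨C, hC⟩ := vanish (hQ.of_le (by norm_cast))
        (hpos.mono fun z hz => Qf_nonneg hz.1 hz.2.1 hz.2.2 _) (hg i) hgi (hg' i)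
        (h0.mono fun z hz => hz i)
      refine ⟨|C|, abs_nonneg _, hC.mono fun z hz => hz.trans ?_⟩
      exact mul_le_mul_of_nonneg_right (le_abs_self _) (by positivity)
    · have hc : ContinuousAt (fun z => Qf n ν (β z) (θ z) (dh (g i) z) / ‖g i z‖ ^ 2) p :=
        hQ.continuousAt.div ((hg i).continuousAt.norm.pow 2)
          (pow_ne_zero 2 (norm_ne_zero_iff.2 hgi))
      refine ⟨|Qf n ν (β p) (θ p) (dh (g i) p) / ‖g i p‖ ^ 2| + 1, by positivity, ?_⟩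
      have hev : ∀ᶠ z in 𝓝 p, Qf n ν (β z) (θ z) (dh (g i) z) / ‖g i z‖ ^ 2 <
          |Qf n ν (β p) (θ p) (dh (g i) p) / ‖g i p‖ ^ 2| + 1 :=
        hc.eventually (gt_mem_nhds (lt_of_le_of_lt (le_abs_self _) (lt_add_one _)))
      filter_upwards [hev, (hg i).continuousAt.eventually_ne hgi] with z hz hz2
      have h2 : 0 < ‖g i z‖ ^ 2 := pow_pos (norm_pos_iff.2 hz2) 2
      rw [div_lt_iff₀ h2] at hz
      exact hz.le
  choose c hc0 hc using h1
  -- the smooth factor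
  have hdE : ∀ k, ContDiffAt ℝ 1 (fun z => ((E z : ℂ)⁻¹ • dd E z) k) p := by
    intro k
    have e1 : ContDiffAt ℝ 1 (fun z => dd E z k) p :=
      INT.contDiffAt_dz (INT.ofReal_contDiffAt hE) (by norm_num)
    have e2 : ContDiffAt ℝ 1 (fun z => (E z : ℂ)⁻¹) p :=
      ((INT.ofReal_contDiffAt hE).of_le (by norm_num)).inv (by exact_mod_cast hE0.ne')
    exact e2.mul e1
  have hQE : ContinuousAt (fun z => Qf n ν (β z) (θ z) ((E z : ℂ)⁻¹ • dd E z)) p :=
    (contDiffAt_Qf (fun i j => (hβ i j).of_le (by norm_cast)) (fun i j => (hθ i j).of_le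
      (by norm_cast)) hdE).continuousAt
  set M : ℝ := |Qf n ν (β p) (θ p) ((E p : ℂ)⁻¹ • dd E p)| + 1 with hM
  have hQE' : ∀ᶠ z in 𝓝 p, Qf n ν (β z) (θ z) ((E z : ℂ)⁻¹ • dd E z) < M :=
    hQE.eventually (gt_mem_nhds (lt_of_le_of_lt (le_abs_self _) (lt_add_one _)))
  refine ⟨2 * (2 ^ r * ∑ i, (a i : ℝ) ^ 2 * c i + M), ?_⟩
  have hc' : ∀ᶠ z in 𝓝 p, ∀ i, Qf n ν (β z) (θ z) (dh (g i) z) ≤ c i * ‖g i z‖ ^ 2 :=
    eventually_all.2 hc
  have hga : ∀ᶠ z in 𝓝 p, ∀ i, ContDiffAt ℂ ω (g i) z :=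
    eventually_all.2 fun i => (hg i).eventually (by simp)
  filter_upwards [hpos, hR.eventually_nhds, hQE', hc', hga, hE.eventually (by simp),
    hE.continuousAt.eventually (lt_mem_nhds hE0)] with z hz hRz hQz hcz hgz hEz hE0z
  intro hRpos
  have hR0 := hRz.self_of_nhds
  have hG0 : ∏ i, g i z ^ a i ≠ 0 := by
    intro h
    rw [hR0, h, norm_zero, zero_pow two_ne_zero, zero_mul] at hRpos
    exact lt_irrefl _ hRpos
  have hGz : ContDiffAt ℂ ω (fun y => ∏ i, g i y ^ a i) z :=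
    contDiffAt_prod fun i _ => (hgz i).pow (a i)
  rw [dd_log_mul hRz hGz hG0 hEz hE0z,
    dh_prod a (fun i => (hgz i).differentiableAt (by simp)) hG0]
  refine (Qf_add_le hz.1 hz.2.1 hz.2.2 _ _).trans ?_
  refine mul_le_mul_of_nonneg_left (add_le_add ?_ hQz.le) zero_le_two
  refine (Qf_sum_le hz.1 hz.2.1 hz.2.2 Finset.univ _).trans ?_
  rw [Finset.card_univ, Fintype.card_fin]
  refine mul_le_mul_of_nonneg_left (Finset.sum_le_sum fun i _ => ?_) (by positivity)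
  rw [Qf_smul, norm_div, Complex.norm_natCast, div_pow]
  rcases Nat.eq_zero_or_pos (a i) with h | h
  · rw [h]; simp
  · have hgi : g i z ≠ 0 := fun h2 =>
      Finset.prod_ne_zero_iff.1 hG0 i (Finset.mem_univ i) (by rw [h2, zero_pow h.ne'])
    have h3 : 0 < ‖g i z‖ ^ 2 := pow_pos (norm_pos_iff.2 hgi) 2
    rw [div_mul_eq_mul_div, div_le_iff₀ h3, mul_assoc]
    exact mul_le_mul_of_nonneg_left (hcz i) (by positivity)

end Vale.Agent.P281.H368.GM
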