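import Vale.Agent.P281.H368.GM.K1
import Vale.Agent.P281.H564.GMb
import Vale.Agent.P281.H167.GM.Tools

/-! P281, GM-K, part 2: the coefficients of `s ↦ tr (adj (β + s θ) B)`. -/

open scoped Manifold ContDiff Topology ComplexOrder
open Set Filter Vale.Agent.P272.K

noncomputable section

namespace Vale.Agent.P281.H368.GM

open Vale.Agent.P281.H167.GM Vale.Agent.P272.K.INT Vale.Agent.P299.H882
open Polynomial (C X)

section poly

/-- `p(s) / s ^ k → p.coeff k` if `deg p ≤ k` -/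
lemma tendsto_coeff {p : Polynomial ℝ} {k : ℕ} (hp : p.natDegree ≤ k) :
    Tendsto (fun s : ℝ => p.eval s / s ^ k) atTop (𝓝 (p.coeff k)) := by
  have h1 : ∀ s : ℝ, p.eval s / s ^ k = ∑ i ∈ Finset.range (k + 1), p.coeff i * (s ^ i / s ^ k) := by
    intro s
    rw [Polynomial.eval_eq_sum_range' (Nat.lt_succ_of_le hp), Finset.sum_div]
    exact Finset.sum_congr rfl fun i _ => mul_div_assoc _ _ _
  have h2 : p.coeff k = ∑ i ∈ Finset.range (k + 1), p.coeff i * (if i = k then 1 else 0) := by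
    rw [Finset.sum_eq_single k]
    · simp
    · intro i _ hi
      rw [if_neg hi, mul_zero]
    · intro hk
      exact absurd (Finset.mem_range.2 (Nat.lt_succ_self k)) hk
  rw [h2]
  simp_rw [h1]
  refine tendsto_finsetSum _ fun i hi => Tendsto.const_mul _ ?_
  have hik : i ≤ k := Nat.lt_succ_iff.1 (Finset.mem_range.1 hi)
  split_ifs with h
  · subst h
    refine tendsto_const_nhds.congr' ?_
    filter_upwards [eventually_gt_atTop 0] with s hs
    exact (div_self (pow_ne_zero _ hs.ne')).symm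
  · have hlt : i < k := lt_of_le_of_ne hik h
    have h3 := tendsto_pow_neg_atTop (𝕜 := ℝ) (n := k - i) (by omega)
    refine h3.congr' ?_
    filter_upwards [eventually_gt_atTop 0] with s hs
    rw [zpow_neg, zpow_natCast, eq_div_iff (pow_ne_zero _ hs.ne')]
    have h4 : s ^ k = s ^ (k - i) * s ^ i := by rw [← pow_add]; congr 1; omega
    rw [h4, ← mul_assoc, inv_mul_cancel₀ (pow_ne_zero _ hs.ne'), one_mul]

/-- a polynomial with `0 ≤ p ≤ C s ^ k` has degree `≤ k` -/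
lemma natDegree_le_of_bound {p : Polynomial ℝ} {C : ℝ} {k : ℕ} (h0 : ∀ s : ℝ, 1 ≤ s → 0 ≤ p.eval s)
    (h1 : ∀ s : ℝ, 1 ≤ s → p.eval s ≤ C * s ^ k) : p.natDegree ≤ k := by
  by_contra hcon
  push Not at hcon
  have hp0 : p ≠ 0 := by
    intro h
    rw [h, Polynomial.natDegree_zero] at hcon
    exact Nat.not_lt_zero _ hcon
  have hd : ((Polynomial.X : Polynomial ℝ) ^ k).degree < p.degree := by
    rw [Polynomial.degree_X_pow, Polynomial.degree_eq_natDegree hp0]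
    exact_mod_cast hcon
  have h2 := Polynomial.abs_div_tendsto_atTop_atTop_of_degree_gt p (Polynomial.X ^ k) hd
    (by simp)
  obtain ⟨s, hs1, hs2⟩ := ((h2.eventually_gt_atTop (|C| + 1)).and (eventually_ge_atTop 1)).exists
  rw [Polynomial.eval_pow, Polynomial.eval_X] at hs1
  have h3 : 0 < s ^ k := pow_pos (lt_of_lt_of_le one_pos hs2) k
  rw [abs_of_nonneg (div_nonneg (h0 s hs2) h3.le), lt_div_iff₀ h3] at hs1
  have := h1 s hs2
  have := le_abs_self C
  nlinarith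

/-- a polynomial of degree `< k` is `≤ C s ^ k / s` for `s ≥ 1` -/
lemma le_of_coeff_zero {p : Polynomial ℝ} {k : ℕ} (h : ∀ a, k ≤ a → p.coeff a = 0) :
    ∃ C : ℝ, ∀ s : ℝ, 1 ≤ s → p.eval s ≤ C * s ^ k / s := by
  refine ⟨∑ i ∈ Finset.range k, |p.coeff i|, fun s hs => ?_⟩
  have hs0 : 0 < s := lt_of_lt_of_le one_pos hs
  rw [le_div_iff₀ hs0]
  have h1 : p.eval s = ∑ i ∈ Finset.range k, p.coeff i * s ^ i := by
    rw [Polynomial.eval_eq_sum_range' (n := max k (p.natDegree + 1))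
      (lt_of_lt_of_le (Nat.lt_succ_self _) (le_max_right _ _))]
    refine (Finset.sum_subset (Finset.range_mono (le_max_left _ _)) ?_).symm
    intro i _ hi
    rw [Finset.mem_range, not_lt] at hi
    rw [h i hi, zero_mul]
  rw [h1, Finset.sum_mul, Finset.sum_mul]
  refine Finset.sum_le_sum fun i hi => ?_
  have hik : i + 1 ≤ k := Finset.mem_range.1 hi
  calc p.coeff i * s ^ i * s = p.coeff i * s ^ (i + 1) := by ring
    _ ≤ |p.coeff i| * s ^ (i + 1) :=
        mul_le_mul_of_nonneg_right (le_abs_self _) (pow_nonneg hs0.le _)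
    _ ≤ |p.coeff i| * s ^ k :=
        mul_le_mul_of_nonneg_left (pow_le_pow_right₀ hs hik) (abs_nonneg _)

lemma isPolyN_sum {ι : Type*} (s : Finset ι) {m : ℕ} {f : ι → ℝ → ℝ}
    (hf : ∀ i ∈ s, IsPolyN m (f i)) : IsPolyN m (fun t => ∑ i ∈ s, f i t) := by
  choose! a ha using hf
  refine ⟨fun k => ∑ i ∈ s, a i k, fun t => ?_⟩
  simp only
  rw [Finset.sum_congr rfl fun i hi => ha i hi t, Finset.sum_comm]
  exact Finset.sum_congr rfl fun k _ => by rw [Finset.sum_mul]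

lemma exists_polyN {m : ℕ} {f : ℝ → ℝ} (hf : IsPolyN m f) :
    ∃ p : Polynomial ℝ, p.natDegree ≤ m ∧ ∀ t, p.eval t = f t := by
  obtain ⟨a, ha⟩ := hf
  refine ⟨∑ k ∈ Finset.range (m + 1), C (a k) * X ^ k, ?_, fun t => ?_⟩
  · refine Polynomial.natDegree_sum_le_of_forall_le _ _ fun k hk => ?_
    refine (Polynomial.natDegree_C_mul_X_pow_le _ _).trans ?_
    exact Nat.lt_succ_iff.1 (Finset.mem_range.1 hk)
  · rw [Polynomial.eval_finsetSum, ha]
    simp

/-- the weights of the `a`-th coefficient -/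
def cw (n a : ℕ) : Fin (n + 1) → ℝ := (exists_coeff_formula n a).choose

lemma cw_spec (n a : ℕ) {p : Polynomial ℝ} (hp : p.natDegree ≤ n) :
    p.coeff a = ∑ l : Fin (n + 1), cw n a l * p.eval ((l : ℕ) : ℝ) :=
  (exists_coeff_formula n a).choose_spec p hp

end poly

variable {n : ℕ}

section mixD

variable {A B B' β θ : Matrix (Fin n) (Fin n) ℂ}

lemma mixD_add_right (A B B' : Matrix (Fin n) (Fin n) ℂ) : mixD A (B + B') = mixD A B + mixD A B' := by
  simp only [mixD, Matrix.mul_add, Matrix.trace_add, Complex.add_re]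

lemma mixD_sub_right (A B B' : Matrix (Fin n) (Fin n) ℂ) : mixD A (B - B') = mixD A B - mixD A B' := by
  simp only [mixD, Matrix.mul_sub, Matrix.trace_sub, Complex.sub_re]

lemma mixD_smul_right (A B : Matrix (Fin n) (Fin n) ℂ) (c : ℝ) :
    mixD A ((c : ℂ) • B) = c * mixD A B := by
  simp only [mixD, Matrix.mul_smul, Matrix.trace_smul, smul_eq_mul, Complex.re_ofReal_mul]

lemma mixD_zero_right (A : Matrix (Fin n) (Fin n) ℂ) : mixD A 0 = 0 := by
  simp [mixD]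

/-- `s ↦ tr (adj (β + s θ) B)` is a polynomial -/
lemma isPolyN_mixD (β θ B : Matrix (Fin n) (Fin n) ℂ) :
    IsPolyN n fun s : ℝ => mixD (β + (s : ℂ) • θ) B := by
  have h1 : ∀ s : ℝ, mixD (β + (s : ℂ) • θ) B =
      ∑ r, (β.updateRow r (B r) + (s : ℂ) • θ.updateRow r 0).det.re := by
    intro s
    rw [mixD, ← Vale.Agent.P281.H564.sum_updateRow, Complex.re_sum]
    refine Finset.sum_congr rfl fun r _ => ?_
    congr 2
    ext i j
    by_cases hi : i = r
    · subst hi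
      simp
    · simp [Matrix.updateRow_ne hi]
  have h2 : (fun s : ℝ => mixD (β + (s : ℂ) • θ) B) = fun s : ℝ =>
      ∑ r, (β.updateRow r (B r) + (s : ℂ) • θ.updateRow r 0).det.re := funext h1
  rw [h2]
  exact isPolyN_sum _ fun r _ => isPolyN_det _ _

lemma tendsto_pert (A B : Matrix (Fin n) (Fin n) ℂ) :
    Tendsto (fun ε : ℝ => mixD (A + (ε : ℂ) • (1 : Matrix (Fin n) (Fin n) ℂ)) B) (𝓝[>] 0)
      (𝓝 (mixD A B)) := by
  have hc : Continuous fun ε : ℝ => mixD (A + (ε : ℂ) • (1 : Matrix (Fin n) (Fin n) ℂ)) B := by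
    unfold mixD
    refine Complex.continuous_re.comp (Continuous.matrix_trace (Continuous.matrix_mul
      (Continuous.matrix_adjugate (continuous_const.add
        (Complex.continuous_ofReal.smul continuous_const))) continuous_const))
  have := (hc.tendsto 0).mono_left (nhdsWithin_le_nhds (s := Ioi 0))
  simpa using this

lemma tendsto_pert_det (A : Matrix (Fin n) (Fin n) ℂ) :
    Tendsto (fun ε : ℝ => (A + (ε : ℂ) • (1 : Matrix (Fin n) (Fin n) ℂ)).det.re) (𝓝[>] 0)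
      (𝓝 A.det.re) := by
  have hc : Continuous fun ε : ℝ => (A + (ε : ℂ) • (1 : Matrix (Fin n) (Fin n) ℂ)).det.re :=
    Complex.continuous_re.comp (Continuous.matrix_det
      (continuous_const.add (Complex.continuous_ofReal.smul continuous_const)))
  have := (hc.tendsto 0).mono_left (nhdsWithin_le_nhds (s := Ioi 0))
  simpa using this

lemma pert_posDef (hA : A.PosSemidef) {ε : ℝ} (hε : 0 < ε) :
    (A + (ε : ℂ) • (1 : Matrix (Fin n) (Fin n) ℂ)).PosDef :=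
  Matrix.PosDef.posSemidef_add hA (Matrix.PosDef.one.smul (by exact_mod_cast hε))

lemma mixD_nonneg (hA : A.PosSemidef) (hB : B.PosSemidef) : 0 ≤ mixD A B := by
  refine ge_of_tendsto (tendsto_pert A B) ?_
  filter_upwards [self_mem_nhdsWithin] with ε hε
  have hp := pert_posDef hA (show (0 : ℝ) < ε from hε)
  rw [mixD_eq hp]
  have h1 := (Complex.le_def.1 (Vale.Agent.P272.K.C2.trace_mul_nonneg hp.inv.posSemidef hB)).1
  have h2 := (Complex.pos_iff.1 hp.det_pos).1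
  exact mul_nonneg (by simpa using h1) h2.le

lemma one_add_sum_le_prod {ι : Type*} (s : Finset ι) {f : ι → ℝ} (hf : ∀ i, 0 ≤ f i) :
    1 + ∑ i ∈ s, f i ≤ ∏ i ∈ s, (1 + f i) := by
  classical
  induction s using Finset.induction_on with
  | empty => simp
  | insert a s ha ih =>
    rw [Finset.sum_insert ha, Finset.prod_insert ha]
    have h1 : 0 ≤ ∑ i ∈ s, f i := Finset.sum_nonneg fun i _ => hf i
    have h2 : (1 + f a) * (1 + ∑ i ∈ s, f i) ≤ (1 + f a) * ∏ i ∈ s, (1 + f i) :=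
      mul_le_mul_of_nonneg_left ih (by have := hf a; linarith)
    nlinarith [mul_nonneg (hf a) h1]

lemma mixD_le_det (hA : A.PosSemidef) (hB : B.PosSemidef) : mixD A B ≤ (A + B).det.re := by
  have h1 : Tendsto (fun ε : ℝ => ((A + (ε : ℂ) • (1 : Matrix (Fin n) (Fin n) ℂ)) + B).det.re)
      (𝓝[>] 0) (𝓝 (A + B).det.re) := by
    refine (tendsto_pert_det (A + B)).congr fun ε => ?_
    rw [add_right_comm]
  refine le_of_tendsto_of_tendsto (tendsto_pert A B) h1 ?_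
  filter_upwards [self_mem_nhdsWithin] with ε hε
  have hp := pert_posDef hA (show (0 : ℝ) < ε from hε)
  generalize A + (ε : ℂ) • (1 : Matrix (Fin n) (Fin n) ℂ) = P at hp
  rw [mixD_eq hp]
  obtain ⟨T, U, η, hη, hUT, hTU, e1, e2⟩ := QN.H327.exists_frame hp hB
  have d1 : P = T * Matrix.diagonal (fun _ : Fin n => ((1 : ℝ) : ℂ)) * T.conjTranspose := by
    rw [diag_one_eq, mul_one]; exact e1
  have d2 : P + B = T * Matrix.diagonal (fun k => ((1 + η k : ℝ) : ℂ)) * T.conjTranspose := by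
    have e3 : (Matrix.diagonal (fun k => ((1 + η k : ℝ) : ℂ)) : Matrix (Fin n) (Fin n) ℂ) =
        1 + Matrix.diagonal (fun k => ((η k : ℝ) : ℂ)) := by
      rw [← Matrix.diagonal_one, Matrix.diagonal_add]
      congr 1
      funext k
      simp
    rw [e3, Matrix.mul_add, Matrix.add_mul, mul_one, ← e1, ← e2]
  have d3 : (P⁻¹ * B).trace.re = ∑ k, η k := by
    have f1 : P⁻¹ = U.conjTranspose * U := by
      rw [d1, inv_frame hUT hTU (fun _ => one_pos)]
      have : (Matrix.diagonal (fun _ : Fin n => ((((1:ℝ))⁻¹ : ℝ) : ℂ)) :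
          Matrix (Fin n) (Fin n) ℂ) = 1 := by
        rw [inv_one]; exact diag_one_eq
      rw [this, mul_one]
    have h3 : T.conjTranspose * U.conjTranspose = 1 := by
      rw [← Matrix.conjTranspose_mul, hUT, Matrix.conjTranspose_one]
    rw [f1, e2, Matrix.trace_mul_comm]
    have e2' : T * Matrix.diagonal (fun k => ((η k : ℝ) : ℂ)) * T.conjTranspose *
        (U.conjTranspose * U) = T * Matrix.diagonal (fun k => ((η k : ℝ) : ℂ)) *
        (T.conjTranspose * U.conjTranspose) * U := by noncomm_ring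
    rw [e2', h3, mul_one, Matrix.trace_mul_comm, ← Matrix.mul_assoc, hUT, one_mul,
      Matrix.trace_diagonal, Complex.re_sum]
    simp
  rw [d3, d2, d1, det_frame, det_frame, Finset.prod_const_one, mul_one, mul_comm]
  refine mul_le_mul_of_nonneg_left ?_ (norm_det_pos hUT hTU).le
  have := one_add_sum_le_prod Finset.univ hη
  linarith

/-- the coefficient of `s ^ a` in `tr (adj (β + s θ) B)` -/
def Fa (n a : ℕ) (β θ B : Matrix (Fin n) (Fin n) ℂ) : ℝ :=
  ∑ l : Fin (n + 1), cw n a l * mixD (β + (((l : ℕ) : ℝ) : ℂ) • θ) B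

lemma Fa_eq_coeff {a : ℕ} {p : Polynomial ℝ} (hp : p.natDegree ≤ n)
    (h : ∀ s : ℝ, p.eval s = mixD (β + (s : ℂ) • θ) B) : Fa n a β θ B = p.coeff a := by
  rw [cw_spec n a hp, Fa]
  exact Finset.sum_congr rfl fun l _ => by rw [h]

lemma Fa_add (a : ℕ) (β θ B B' : Matrix (Fin n) (Fin n) ℂ) :
    Fa n a β θ (B + B') = Fa n a β θ B + Fa n a β θ B' := by
  simp only [Fa, mixD_add_right, mul_add, Finset.sum_add_distrib]

lemma Fa_smul (a : ℕ) (β θ B : Matrix (Fin n) (Fin n) ℂ) (c : ℝ) :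
    Fa n a β θ ((c : ℂ) • B) = c * Fa n a β θ B := by
  simp only [Fa, mixD_smul_right, Finset.mul_sum]
  exact Finset.sum_congr rfl fun l _ => by ring

/-- growth of `tr (adj (β + s θ) B)` -/
lemma mixD_growth (hβ : β.PosSemidef) (hθ : θ.PosSemidef) (hB : B.PosSemidef) {ν : ℕ}
    (hr : θ.rank ≤ ν) {s : ℝ} (hs : 1 ≤ s) :
    mixD (β + (s : ℂ) • θ) B ≤ (β + B + ((1 : ℝ) : ℂ) • θ).det.re * s ^ ν := by
  have hs0 : 0 ≤ s := zero_le_one.trans hs
  have h1 := mixD_le_det (hβ.add (hθ.smul (show (0 : ℂ) ≤ (s : ℂ) by exact_mod_cast hs0))) hB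
  have h2 := Vale.Agent.P281.H564.det_add_smul_le (hβ.add hB) hθ hr hs
  rw [add_right_comm] at h1
  rw [mul_comm]
  exact h1.trans h2

lemma mixD_nonneg' (hβ : β.PosSemidef) (hθ : θ.PosSemidef) (hB : B.PosSemidef) {s : ℝ}
    (hs : 0 ≤ s) : 0 ≤ mixD (β + (s : ℂ) • θ) B :=
  mixD_nonneg (hβ.add (hθ.smul (show (0 : ℂ) ≤ (s : ℂ) by exact_mod_cast hs))) hB

lemma Fa_eq_zero (hβ : β.PosSemidef) (hθ : θ.PosSemidef) (hB : B.PosSemidef) {ν a : ℕ}
    (hr : θ.rank ≤ ν) (ha : ν < a) : Fa n a β θ B = 0 := by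
  obtain ⟨p, hp, hev⟩ := exists_polyN (isPolyN_mixD β θ B)
  rw [Fa_eq_coeff hp hev]
  refine Polynomial.coeff_eq_zero_of_natDegree_lt (lt_of_le_of_lt ?_ ha)
  refine natDegree_le_of_bound (C := (β + B + ((1 : ℝ) : ℂ) • θ).det.re) (fun s hs => ?_)
    fun s hs => ?_
  · rw [hev]; exact mixD_nonneg' hβ hθ hB (zero_le_one.trans hs)
  · rw [hev]; exact mixD_growth hβ hθ hB hr hs

lemma Fa_tendsto (hβ : β.PosSemidef) (hθ : θ.PosSemidef) (hB : B.PosSemidef) {ν : ℕ}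
    (hr : θ.rank ≤ ν) :
    Tendsto (fun s : ℝ => mixD (β + (s : ℂ) • θ) B / s ^ ν) atTop (𝓝 (Fa n ν β θ B)) := by
  obtain ⟨p, hp, hev⟩ := exists_polyN (isPolyN_mixD β θ B)
  rw [Fa_eq_coeff hp hev]
  have hdeg : p.natDegree ≤ ν := by
    refine natDegree_le_of_bound (C := (β + B + ((1 : ℝ) : ℂ) • θ).det.re) (fun s hs => ?_)
      fun s hs => ?_
    · rw [hev]; exact mixD_nonneg' hβ hθ hB (zero_le_one.trans hs)
    · rw [hev]; exact mixD_growth hβ hθ hB hr hs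
  exact (tendsto_coeff hdeg).congr fun s => by rw [hev]

lemma Fa_nonneg (hβ : β.PosSemidef) (hθ : θ.PosSemidef) (hB : B.PosSemidef) {ν : ℕ}
    (hr : θ.rank ≤ ν) : 0 ≤ Fa n ν β θ B := by
  refine ge_of_tendsto (Fa_tendsto hβ hθ hB hr) ?_
  filter_upwards [eventually_ge_atTop 0] with s hs
  exact div_nonneg (mixD_nonneg' hβ hθ hB hs) (pow_nonneg hs _)

/-- the leading coefficient vanishes if `tr (adj (β + s θ) B) = O(s ^ ν / s)` -/
lemma Fa_zero_of_le (hβ : β.PosSemidef) (hθ : θ.PosSemidef) (hB : B.PosSemidef) {ν : ℕ}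
    (hr : θ.rank ≤ ν) {C : ℝ} (hC : ∀ s : ℝ, 1 ≤ s → s * mixD (β + (s : ℂ) • θ) B ≤ C * s ^ ν) :
    Fa n ν β θ B = 0 := by
  have h1 : Tendsto (fun s : ℝ => C / s) atTop (𝓝 0) := tendsto_const_nhds.div_atTop tendsto_id
  refine le_antisymm (le_of_tendsto_of_tendsto (Fa_tendsto hβ hθ hB hr) h1 ?_)
    (Fa_nonneg hβ hθ hB hr)
  filter_upwards [eventually_ge_atTop 1] with s hs
  have hs0 : 0 < s := lt_of_lt_of_le one_pos hs
  rw [div_le_div_iff₀ (pow_pos hs0 _) hs0, mul_comm]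
  exact hC s hs

end mixD

section quad

variable {β θ : Matrix (Fin n) (Fin n) ℂ} {ν : ℕ}

/-- the rank one form of a covector -/
abbrev rk1 (ξ : Fin n → ℂ) : Matrix (Fin n) (Fin n) ℂ := Matrix.vecMulVec ξ (star ξ)

lemma rk1_psd (ξ : Fin n → ℂ) : (rk1 ξ).PosSemidef := Matrix.posSemidef_vecMulVec_self_star ξ

lemma rk1_parallel (ξ η : Fin n → ℂ) :
    rk1 (ξ + η) + rk1 (ξ - η) = ((2 : ℝ) : ℂ) • (rk1 ξ + rk1 η) := by
  ext i j
  simp only [rk1, Matrix.add_apply, Matrix.vecMulVec_apply, Pi.add_apply, Pi.sub_apply,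
    Pi.star_apply, star_add, star_sub, Matrix.smul_apply, smul_eq_mul]
  push_cast
  ring

lemma rk1_smul (c : ℂ) (ξ : Fin n → ℂ) : rk1 (c • ξ) = ((‖c‖ ^ 2 : ℝ) : ℂ) • rk1 ξ := by
  ext i j
  simp only [rk1, Matrix.vecMulVec_apply, Pi.smul_apply, Pi.star_apply, star_smul, smul_eq_mul,
    Matrix.smul_apply]
  have h1 : c * star c = ((‖c‖ ^ 2 : ℝ) : ℂ) := by
    rw [RCLike.star_def, Complex.mul_conj, Complex.normSq_eq_norm_sq]
  rw [← h1]
  ring

/-- the quadratic form `Q(ξ) = F_ν(ξ ξ*)` -/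
def Qf (n ν : ℕ) (β θ : Matrix (Fin n) (Fin n) ℂ) (ξ : Fin n → ℂ) : ℝ := Fa n ν β θ (rk1 ξ)

lemma Qf_nonneg (hβ : β.PosSemidef) (hθ : θ.PosSemidef) (hr : θ.rank ≤ ν) (ξ : Fin n → ℂ) :
    0 ≤ Qf n ν β θ ξ := Fa_nonneg hβ hθ (rk1_psd ξ) hr

lemma Qf_smul (c : ℂ) (ξ : Fin n → ℂ) : Qf n ν β θ (c • ξ) = ‖c‖ ^ 2 * Qf n ν β θ ξ := by
  rw [Qf, rk1_smul, Fa_smul, Qf]

lemma Qf_add_le (hβ : β.PosSemidef) (hθ : θ.PosSemidef) (hr : θ.rank ≤ ν) (ξ η : Fin n → ℂ) :
    Qf n ν β θ (ξ + η) ≤ 2 * (Qf n ν β θ ξ + Qf n ν β θ η) := by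
  have h1 := congrArg (Fa n ν β θ) (rk1_parallel ξ η)
  rw [Fa_smul, Fa_add, Fa_add] at h1
  have h2 := Qf_nonneg hβ hθ hr (ξ - η)
  unfold Qf at h2 ⊢
  linarith

lemma Qf_zero : Qf n ν β θ 0 = 0 := by
  have := Qf_smul (n := n) (ν := ν) (β := β) (θ := θ) 0 0
  rw [smul_zero, norm_zero, zero_pow two_ne_zero, zero_mul] at this
  exact this

lemma Qf_sum_le (hβ : β.PosSemidef) (hθ : θ.PosSemidef) (hr : θ.rank ≤ ν) {ι : Type*}
    (s : Finset ι) (ξ : ι → Fin n → ℂ) :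
    Qf n ν β θ (∑ i ∈ s, ξ i) ≤ 2 ^ s.card * ∑ i ∈ s, Qf n ν β θ (ξ i) := by
  classical
  induction s using Finset.induction_on with
  | empty => simp [Qf_zero]
  | insert a s ha ih =>
    rw [Finset.sum_insert ha, Finset.sum_insert ha, Finset.card_insert_of_notMem ha, pow_succ]
    have h1 := Qf_add_le hβ hθ hr (ξ a) (∑ i ∈ s, ξ i)
    have h2 := Qf_nonneg hβ hθ hr (ξ a)
    have h3 : (1 : ℝ) ≤ 2 ^ s.card := one_le_pow₀ one_le_two
    nlinarith

/-- `Q(ξ) = 0` if `ξ` and the two forms have a common kernel vector -/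
lemma Qf_zero_of_ker (hβ : β.PosSemidef) (hθ : θ.PosSemidef) (hr : θ.rank ≤ ν) {ξ w : Fin n → ℂ}
    (hw : w ≠ 0) (h1 : ∑ i, w i * ξ i = 0) (h2 : ∀ j, ∑ i, w i * β i j = 0)
    (h3 : ∀ j, ∑ i, w i * θ i j = 0) : Qf n ν β θ ξ = 0 := by
  refine Fa_zero_of_le (C := 0) hβ hθ (rk1_psd ξ) hr fun s hs => ?_
  have hs0 : (0 : ℝ) ≤ s := zero_le_one.trans hs
  have h4 := mixD_le_det (hβ.add (hθ.smul (show (0 : ℂ) ≤ (s : ℂ) by exact_mod_cast hs0)))
    (rk1_psd ξ)
  have h5 : (β + (s : ℂ) • θ + rk1 ξ).det = 0 := by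
    refine Matrix.exists_vecMul_eq_zero_iff.1 ⟨w, hw, ?_⟩
    funext j
    have e1 : (Matrix.vecMul w (β + (s : ℂ) • θ + rk1 ξ)) j =
        ∑ i, w i * β i j + (s : ℂ) * ∑ i, w i * θ i j + (∑ i, w i * ξ i) * star (ξ j) := by
      rw [Matrix.vecMul, dotProduct, Finset.mul_sum, Finset.sum_mul, ← Finset.sum_add_distrib,
        ← Finset.sum_add_distrib]
      refine Finset.sum_congr rfl fun i _ => ?_
      simp only [rk1, Matrix.add_apply, Matrix.smul_apply, Matrix.vecMulVec_apply, Pi.star_apply,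
        smul_eq_mul]
      ring
    rw [e1, h1, h2, h3, mul_zero, zero_mul, add_zero, add_zero, Pi.zero_apply]
  rw [h5, Complex.zero_re] at h4
  rw [zero_mul]
  exact mul_nonpos_of_nonneg_of_nonpos hs0 h4

/-- the rank of a matrix whose left kernel contains `K` -/
lemma rank_le_of_ker {M : Matrix (Fin n) (Fin n) ℂ} {K : Submodule ℂ (Fin n → ℂ)}
    (hK : n ≤ ν + Module.finrank ℂ K) (h : ∀ w ∈ K, ∀ j, ∑ i, w i * M i j = 0) : M.rank ≤ ν := by
  rw [← Matrix.rank_transpose, Matrix.rank]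
  have h1 := LinearMap.finrank_range_add_finrank_ker M.transpose.mulVecLin
  rw [Module.finrank_fin_fun] at h1
  have h2 : K ≤ LinearMap.ker M.transpose.mulVecLin := by
    intro w hw
    rw [LinearMap.mem_ker, Matrix.mulVecLin_apply, Matrix.mulVec_transpose]
    funext j
    exact h w hw j
  have h3 := Submodule.finrank_mono h2
  omega

/-- `Q(ξ) = 0` if `ξ` and `θ` have a common kernel of dimension `≥ n - ν` -/
lemma Qf_zero_of_sub (hβ : β.PosSemidef) (hθ : θ.PosSemidef) (hr : θ.rank ≤ ν) {ξ : Fin n → ℂ}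
    {K : Submodule ℂ (Fin n → ℂ)} (hK : n ≤ ν + Module.finrank ℂ K)
    (h1 : ∀ w ∈ K, ∑ i, w i * ξ i = 0) (h3 : ∀ w ∈ K, ∀ j, ∑ i, w i * θ i j = 0) :
    Qf n ν β θ ξ = 0 := by
  have hr2 : (θ + rk1 ξ).rank ≤ ν := by
    refine rank_le_of_ker hK fun w hw j => ?_
    have e1 : ∑ i, w i * (θ + rk1 ξ) i j = ∑ i, w i * θ i j + (∑ i, w i * ξ i) * star (ξ j) := by
      rw [Finset.sum_mul, ← Finset.sum_add_distrib]
      refine Finset.sum_congr rfl fun i _ => ?_
      simp only [rk1, Matrix.add_apply, Matrix.vecMulVec_apply, Pi.star_apply]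
      ring
    rw [e1, h1 w hw, h3 w hw, zero_mul, add_zero]
  refine Fa_zero_of_le (C := (β + ((1 : ℝ) : ℂ) • (θ + rk1 ξ)).det.re) hβ hθ (rk1_psd ξ) hr
    fun s hs => ?_
  have hs0 : (0 : ℝ) ≤ s := zero_le_one.trans hs
  have hs0' : (0 : ℂ) ≤ (s : ℂ) := by exact_mod_cast hs0
  rw [← mixD_smul_right]
  refine (mixD_le_det (hβ.add (hθ.smul hs0')) ((rk1_psd ξ).smul hs0')).trans ?_
  have h4 := Vale.Agent.P281.H564.det_add_smul_le hβ (hθ.add (rk1_psd ξ)) hr2 hs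
  rw [smul_add, ← add_assoc] at h4
  rw [mul_comm]
  exact h4

end quad

end Vale.Agent.P281.H368.GM
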