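import Vale.Agent.P281.H167.GM.Iface
import Vale.Agent.P281.H949.SA.M

/-!
# P281, theorem GM, block B

The pull-back of the Fubini–Study form by a holomorphic map `X → ℙ^k` given by homogeneous
coordinates.
-/

open scoped Manifold ContDiff Topology ComplexOrder
open Set Filter Vale.Agent.P281.J Vale.Agent.P272.K Vale.Agent.P299
open Vale.Agent.P272.K.INT (IsClosedForm)

noncomputable section

namespace Vale.Agent.P281.H368.GM

open Vale.Agent.P299.H223 Vale.Agent.P281.H949.SA Vale.Agent.P281.H167.GM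

variable {n : ℕ} {X : Type} [TopologicalSpace X] [ChartedSpace (Cm n) X] {k : ℕ}
  {t : Fin k → X → ℂ}

/-- the affine coordinates `t b / t b₀` in the chart `e` -/
def quo (t : Fin k → X → ℂ) (b₀ : Fin k) (e : Chart n X) (z : Cm n) (b : Fin k) : ℂ :=
  t b (e.symm z) / t b₀ (e.symm z)

/-- an index of a nonzero homogeneous coordinate -/
def idx (ht : IsProjMap n t) (x : X) : Fin k := (ht x).choose

lemma idx_spec (ht : IsProjMap n t) (x : X) : ∀ᶠ z in 𝓝 x, t (idx ht x) z ≠ 0 ∧
    ∀ b, HolAt (Cm n) (fun z => t b z / t (idx ht x) z) z := (ht x).choose_spec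

lemma idx_ne (ht : IsProjMap n t) (x : X) : t (idx ht x) x ≠ 0 :=
  (idx_spec ht x).self_of_nhds.1

variable [IsManifold 𝓘(ℂ, Cm n) ω X]

lemma symm_tendsto {e : Chart n X} {x : X} (h : At e x) : Tendsto e.symm (𝓝 (e x)) (𝓝 x) := by
  have := e.continuousAt_symm h.mem_target
  rw [ContinuousAt, h.left_inv] at this
  exact this

lemma holAt_chart {g : X → ℂ} {e : Chart n X} {x : X} (h : At e x) (hg : HolAt (Cm n) g x) :
    ContDiffAt ℂ ω (fun z => g (e.symm z)) (e x) := by
  rw [← contMDiffAt_iff_contDiffAt]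
  refine ContMDiffAt.comp (e x) (g := g) ?_ (chart_symm_contMDiffAt h.1 h.mem_target)
  rw [h.left_inv]
  exact hg

lemma quo_holo_idx (ht : IsProjMap n t) {e : Chart n X} {x : X} (h : At e x) :
    ContDiffAt ℂ ω (quo t (idx ht x) e) (e x) :=
  contDiffAt_pi.2 fun b => holAt_chart h ((idx_spec ht x).self_of_nhds.2 b)

lemma ne_near_idx (ht : IsProjMap n t) {e : Chart n X} {x : X} (h : At e x) :
    ∀ᶠ z in 𝓝 (e x), t (idx ht x) (e.symm z) ≠ 0 := by
  filter_upwards [(symm_tendsto h).eventually (idx_spec ht x)] with z hz using hz.1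

lemma ne_near (ht : IsProjMap n t) {e : Chart n X} {x : X} (h : At e x) {b₀ : Fin k}
    (h0 : t b₀ x ≠ 0) : ∀ᶠ z in 𝓝 (e x), t b₀ (e.symm z) ≠ 0 := by
  have h1 : ContDiffAt ℂ ω (fun z => quo t (idx ht x) e z b₀) (e x) := comp_cd (quo_holo_idx ht h) b₀
  have h2 : quo t (idx ht x) e (e x) b₀ ≠ 0 := by
    simp only [quo, h.left_inv]
    exact div_ne_zero h0 (idx_ne ht x)
  filter_upwards [h1.continuousAt.eventually_ne h2] with z hz h3
  exact hz (by simp [quo, h3])

lemma quo_holo (ht : IsProjMap n t) {e : Chart n X} {x : X} (h : At e x) {b₀ : Fin k}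
    (h0 : t b₀ x ≠ 0) : ContDiffAt ℂ ω (quo t b₀ e) (e x) := by
  refine contDiffAt_pi.2 fun b => ?_
  have h1 : ContDiffAt ℂ ω (fun z => quo t (idx ht x) e z b₀) (e x) := comp_cd (quo_holo_idx ht h) b₀
  have h3 : ContDiffAt ℂ ω (fun z => quo t (idx ht x) e z b) (e x) := comp_cd (quo_holo_idx ht h) b
  have h2 : quo t (idx ht x) e (e x) b₀ ≠ 0 := by
    simp only [quo, h.left_inv]
    exact div_ne_zero h0 (idx_ne ht x)
  refine (h3.div h1 h2).congr_of_eventuallyEq ?_
  filter_upwards [ne_near_idx ht h] with z hz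
  simp only [quo]
  exact (div_div_div_cancel_right₀ hz _ _).symm

lemma quo_ne {e : Chart n X} {x : X} (h : At e x) {b₀ : Fin k} (h0 : t b₀ x ≠ 0) :
    quo t b₀ e (e x) ≠ 0 := by
  intro h1
  have h2 := congrFun h1 b₀
  simp only [quo, h.left_inv, Pi.zero_apply] at h2
  exact div_ne_zero h0 h0 h2

lemma fsM_quo (ht : IsProjMap n t) {e : Chart n X} {x : X} (h : At e x) {b₀ b₁ : Fin k}
    (h0 : t b₀ x ≠ 0) (h1 : t b₁ x ≠ 0) :
    fsM (quo t b₀ e) (e x) = fsM (quo t b₁ e) (e x) := by
  refine fsM_congr (quo_holo ht h h0) (quo_holo ht h h1) (quo_ne h h0) (quo_ne h h1) ?_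
  filter_upwards [ne_near ht h h0, ne_near ht h h1] with z hz hz1
  refine ⟨t b₁ (e.symm z) / t b₀ (e.symm z), funext fun b => ?_⟩
  simp only [quo, Pi.smul_apply, smul_eq_mul]
  field_simp

/-- the pull-back of the Fubini–Study form -/
def fs (ht : IsProjMap n t) : D.FormM n X := fun e z => fsM (quo t (idx ht (e.symm z)) e) z

lemma fs_eq (ht : IsProjMap n t) {e : Chart n X} {x : X} (h : At e x) {b₀ : Fin k}
    (h0 : t b₀ x ≠ 0) : fs ht e (e x) = fsM (quo t b₀ e) (e x) := by
  show fsM (quo t (idx ht (e.symm (e x))) e) (e x) = _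
  rw [h.left_inv]
  exact fsM_quo ht h (idx_ne ht x) h0

lemma fs_ev (ht : IsProjMap n t) {e : Chart n X} {x : X} (h : At e x) {b₀ : Fin k}
    (h0 : t b₀ x ≠ 0) : fs ht e =ᶠ[𝓝 (e x)] fun z =>
      cHess (fun y => Real.log (nsq (quo t b₀ e y))) z := by
  filter_upwards [ne_near ht h h0, h.nhds_at h] with z hz hz'
  have h1 := fs_eq ht hz'.2.1 hz
  rw [e.right_inv hz'.1] at h1
  rw [h1]
  rfl

lemma fs_smooth_log (ht : IsProjMap n t) {e : Chart n X} {x : X} (h : At e x) {b₀ : Fin k}
    (h0 : t b₀ x ≠ 0) : ContDiffAt ℝ ∞ (fun y => Real.log (nsq (quo t b₀ e y))) (e x) :=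
  smooth_log_nsq (quo_holo ht h h0) (quo_ne h h0)

lemma fs_closed (ht : IsProjMap n t) : IsClosedForm (fs ht) where
  smooth e x h i j := by
    have h1 := INT.smooth_cHess (fs_smooth_log ht h (idx_ne ht x)) i j
    refine h1.congr_of_eventuallyEq ?_
    filter_upwards [fs_ev ht h (idx_ne ht x)] with z hz
    rw [hz]
  form e e' x h h' := by
    rw [fs_eq ht h (idx_ne ht x), fs_eq ht h' (idx_ne ht x)]
    have h1 : (fun y => Real.log (nsq (quo t (idx ht x) e y))) =ᶠ[𝓝 (e x)] fun y =>
        Real.log (nsq (quo t (idx ht x) e' (e' (e.symm y)))) := by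
      filter_upwards [h.nhds_at h'] with z hz
      have h4 : quo t (idx ht x) e' (e' (e.symm z)) = quo t (idx ht x) e z := by
        funext b
        simp only [quo, e'.left_inv hz.2.2.2]
      rw [h4]
    have h2 : e' (e.symm (e x)) = e' x := by rw [h.left_inv]
    have h3 : ContDiffAt ℝ 2 (fun y => Real.log (nsq (quo t (idx ht x) e' y)))
        ((fun z => e' (e.symm z)) (e x)) := by
      show ContDiffAt ℝ 2 _ (e' (e.symm (e x)))
      rw [h2]
      exact (fs_smooth_log ht h' (idx_ne ht x)).of_le INT.two_le_inf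
    unfold fsM
    rw [cHess_congr h1, cHess_comp (τ := fun z => e' (e.symm z)) h3 (transition h h'), h2]
    rfl
  closed e x h i k l := by
    have h1 := INT.cHess_closed (fs_smooth_log ht h (idx_ne ht x)) i k l
    have h2 : ∀ a b, (fun z => fs ht e z a b) =ᶠ[𝓝 (e x)] fun z =>
        cHess (fun y => Real.log (nsq (quo t (idx ht x) e y))) z a b := by
      intro a b
      filter_upwards [fs_ev ht h (idx_ne ht x)] with z hz
      rw [hz]
    rw [dz_congr (h2 k l), dz_congr (h2 i l)]
    exact h1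

/-- **GM-B.** -/
theorem fsPart : FSPart := by
  intro n X _ _ _ _ k t ht
  refine ⟨fs ht, fs_closed ht, fun e x h => ?_, fun e x h b₀ h0 => ?_, fun e x h b₀ h0 => ?_⟩
  · rw [fs_eq ht h (idx_ne ht x)]
    exact fsM_psd (quo_holo ht h (idx_ne ht x)) (quo_ne h (idx_ne ht x))
  · rw [fs_eq ht h h0]
    rfl
  · rw [fs_eq ht h h0]
    have hF := quo_holo ht h h0
    have hF0 := quo_ne h h0
    have hb : quo t b₀ e (e x) b₀ ≠ 0 := by
      simp only [quo, h.left_inv]
      exact div_ne_zero h0 h0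
    have hone : ∀ᶠ y in 𝓝 (e x), quo t b₀ e y b₀ = 1 := by
      filter_upwards [ne_near ht h h0] with z hz
      simp only [quo]
      exact div_self hz
    have hq : ∀ v : Cm n, (∃ c : ℂ, fderiv ℂ (quo t b₀ e) (e x) v = c • quo t b₀ e (e x)) ↔
        ∀ b, fderiv ℂ (fun z => t b (e.symm z) / t b₀ (e.symm z)) (e x) v = 0 := by
      intro v
      rw [fderiv_quot hF hb]
      refine forall_congr' fun b => ?_
      have h1 : (fun y => quo t b₀ e y b / quo t b₀ e y b₀) =ᶠ[𝓝 (e x)]
          fun z => t b (e.symm z) / t b₀ (e.symm z) := by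
        filter_upwards [hone] with z hz
        rw [hz, div_one]
        rfl
      rw [h1.fderiv_eq]
    constructor
    · intro hpd v hv
      by_contra hv0
      have h1 := (fsM_ker hF hF0 v).2 ((hq v).2 hv)
      have h2 := (Matrix.posDef_iff_dotProduct_mulVec.1 hpd).2 (x := star v) (by simpa using hv0)
      have h3 : (fsM (quo t b₀ e) (e x)).mulVec (star v) = 0 := by
        have hH := fsM_isHermitian hF hF0
        funext j
        have h4 : (fsM (quo t b₀ e) (e x)).mulVec (star v) j =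
            star (∑ i, v i * fsM (quo t b₀ e) (e x) i j) := by
          rw [star_sum]
          simp only [Matrix.mulVec, dotProduct]
          refine Finset.sum_congr rfl fun i _ => ?_
          rw [star_mul, Pi.star_apply]
          congr 1
          exact (hH.apply j i).symm
        rw [h4, h1 j, star_zero, Pi.zero_apply]
      rw [h3, dotProduct_zero] at h2
      exact lt_irrefl _ h2
    · intro hv
      exact fsM_posDef hF hF0 fun v c hc => hv v ((hq v).1 ⟨c, hc⟩)

end Vale.Agent.P281.H368.GM
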