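import Vale.Agent.P281.H368.GM.KDefs
import Mathlib.Analysis.Calculus.InverseFunctionTheorem.ApproximatesLinearOn
import Mathlib.Analysis.Calculus.InverseFunctionTheorem.FDeriv
import Mathlib.Analysis.Normed.Operator.Banach

/-! P281, GM-K, part 1: a nonnegative `C²` function which vanishes on a smooth complex hypersurface
`g = 0` is `O(|g|²)`. -/

open scoped Manifold ContDiff Topology ComplexOrder
open Set Filter Vale.Agent.P272.K

noncomputable section

namespace Vale.Agent.P281.H368.GM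

variable {n : ℕ}

lemma surjective_of_ne_zero {L : Cm n →L[ℂ] ℂ} (h : L ≠ 0) : Function.Surjective L := by
  have h1 : ∃ v, L v ≠ 0 := by
    by_contra hcon
    push Not at hcon
    exact h (ContinuousLinearMap.ext hcon)
  obtain ⟨v, hv⟩ := h1
  intro c
  exact ⟨(c / L v) • v, by rw [map_smul, smul_eq_mul, div_mul_cancel₀ _ hv]⟩

/-- near points of a smooth hypersurface `g = 0` the distance to `g = 0` is `O(|g|)` -/
lemma exists_zero_near {p : Cm n} {g : Cm n → ℂ} (hg : ContDiffAt ℂ ω g p) (hgp : g p = 0)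
    (hg' : fderiv ℂ g p ≠ 0) : ∃ C : ℝ, 0 < C ∧ ∀ᶠ y in 𝓝 p, ∃ y', ‖y' - y‖ ≤ C * ‖g y‖ ∧
      g y' = 0 := by
  have hstr : HasStrictFDerivAt g (fderiv ℂ g p) p := hg.hasStrictFDerivAt (by simp)
  have hsurj := surjective_of_ne_zero hg'
  have hR : (fderiv ℂ g p).range = ⊤ := LinearMap.range_eq_top.2 hsurj
  set T := (fderiv ℂ g p).nonlinearRightInverseOfSurjective hR with hT
  have hTpos : 0 < T.nnnorm :=
    (fderiv ℂ g p).nonlinearRightInverseOfSurjective_nnnorm_pos hR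
  have hc : 0 < T.nnnorm⁻¹ / 2 := half_pos (inv_pos.2 hTpos)
  obtain ⟨s, hs, happ⟩ := hstr.approximates_deriv_on_nhds (Or.inr hc)
  have hcr : (T.nnnorm : ℝ)⁻¹ - ((T.nnnorm⁻¹ / 2 : NNReal) : ℝ) = (T.nnnorm : ℝ)⁻¹ / 2 := by
    push_cast
    ring
  have hpos : 0 < (T.nnnorm : ℝ)⁻¹ / 2 := half_pos (inv_pos.2 (by exact_mod_cast hTpos))
  set C : ℝ := ((T.nnnorm : ℝ)⁻¹ / 2)⁻¹ with hC
  have hC0 : 0 < C := inv_pos.2 hpos
  refine ⟨C, hC0, ?_⟩
  obtain ⟨r, hr, hrs⟩ := Metric.mem_nhds_iff.1 hs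
  have h1 : Tendsto (fun y => C * ‖g y‖) (𝓝 p) (𝓝 0) := by
    have : Tendsto (fun y => C * ‖g y‖) (𝓝 p) (𝓝 (C * ‖g p‖)) :=
      (hg.continuousAt.norm).const_mul C
    rwa [hgp, norm_zero, mul_zero] at this
  filter_upwards [h1.eventually (gt_mem_nhds (half_pos hr)), Metric.ball_mem_nhds p (half_pos hr)]
    with y hy hyp
  have hball : Metric.closedBall y (C * ‖g y‖) ⊆ s := by
    refine Subset.trans ?_ hrs
    intro z hz
    rw [Metric.mem_closedBall] at hz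
    rw [Metric.mem_ball] at hyp ⊢
    calc dist z p ≤ dist z y + dist y p := dist_triangle _ _ _
      _ < r / 2 + r / 2 := add_lt_add (lt_of_le_of_lt hz hy) hyp
      _ = r := by ring
  have hsur := happ.surjOn_closedBall_of_nonlinearRightInverse T
    (mul_nonneg hC0.le (norm_nonneg _)) hball
  have h0 : (0 : ℂ) ∈ Metric.closedBall (g y)
      (((T.nnnorm : ℝ)⁻¹ - ((T.nnnorm⁻¹ / 2 : NNReal) : ℝ)) * (C * ‖g y‖)) := by
    rw [hcr, ← mul_assoc, hC, mul_inv_cancel₀ hpos.ne', one_mul, Metric.mem_closedBall,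
      dist_zero_left]
  obtain ⟨y', hy', hgy'⟩ := hsur h0
  exact ⟨y', by rwa [Metric.mem_closedBall, dist_eq_norm] at hy', hgy'⟩

/-- **the vanishing lemma** -/
theorem vanish {p : Cm n} {f : Cm n → ℝ} {g : Cm n → ℂ} (hf : ContDiffAt ℝ 2 f p)
    (hf0 : ∀ᶠ z in 𝓝 p, 0 ≤ f z) (hg : ContDiffAt ℂ ω g p) (hgp : g p = 0)
    (hg' : fderiv ℂ g p ≠ 0) (h : ∀ᶠ z in 𝓝 p, g z = 0 → f z = 0) :
    ∃ C : ℝ, ∀ᶠ z in 𝓝 p, f z ≤ C * ‖g z‖ ^ 2 := by
  obtain ⟨C, hC, hnear⟩ := exists_zero_near hg hgp hg'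
  have hf1 : ContDiffAt ℝ 1 (fderiv ℝ f) p := hf.fderiv_right (m := 1) (by norm_num)
  obtain ⟨M, t, ht, hlip⟩ := hf1.exists_lipschitzOnWith
  have hdiff : ∀ᶠ z in 𝓝 p, DifferentiableAt ℝ f z := by
    filter_upwards [hf.eventually (by simp)] with z hz
    exact hz.differentiableAt (by simp)
  obtain ⟨r, hr, hball⟩ := Metric.eventually_nhds_iff_ball.1
    (((hf0.and hdiff).and h).and (eventually_mem_set.2 ht))
  have h1 : Tendsto (fun y => C * ‖g y‖) (𝓝 p) (𝓝 0) := by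
    have : Tendsto (fun y => C * ‖g y‖) (𝓝 p) (𝓝 (C * ‖g p‖)) :=
      (hg.continuousAt.norm).const_mul C
    rwa [hgp, norm_zero, mul_zero] at this
  refine ⟨M * C ^ 2, ?_⟩
  filter_upwards [hnear, h1.eventually (gt_mem_nhds (half_pos hr)),
    Metric.ball_mem_nhds p (half_pos hr)] with y hy hy1 hy2
  obtain ⟨y', hy', hgy'⟩ := hy
  have hy'p : y' ∈ Metric.ball p r := by
    rw [Metric.mem_ball] at hy2 ⊢
    calc dist y' p ≤ dist y' y + dist y p := dist_triangle _ _ _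
      _ < r / 2 + r / 2 := by
        refine add_lt_add (lt_of_le_of_lt ?_ hy1) hy2
        rwa [dist_eq_norm]
      _ = r := by ring
  have hyp : y ∈ Metric.ball p r := Metric.ball_subset_ball (by linarith) hy2
  have hfy' : f y' = 0 := (hball y' hy'p).1.2 hgy'
  have hmin : IsLocalMin f y' := by
    filter_upwards [Metric.isOpen_ball.mem_nhds hy'p] with z hz
    rw [hfy']
    exact (hball z hz).1.1.1
  have hd0 : fderiv ℝ f y' = 0 := hmin.fderiv_eq_zero
  have hseg : segment ℝ y' y ⊆ Metric.ball p r := (convex_ball p r).segment_subset hy'p hyp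
  have hbound : ∀ z ∈ segment ℝ y' y, ‖fderiv ℝ f z‖ ≤ M * ‖y - y'‖ := by
    intro z hz
    have h2 := hlip.dist_le_mul z (hball z (hseg hz)).2 y' (hball y' hy'p).2
    rw [dist_eq_norm, hd0, sub_zero] at h2
    refine h2.trans (mul_le_mul_of_nonneg_left ?_ M.coe_nonneg)
    rw [dist_eq_norm, norm_sub_rev z y']
    have h3 := dist_add_dist_of_mem_segment hz
    rw [dist_eq_norm, dist_eq_norm, dist_eq_norm] at h3
    rw [norm_sub_rev y y']
    have := norm_nonneg (z - y)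
    linarith
  have hmv := Convex.norm_image_sub_le_of_norm_fderiv_le (𝕜 := ℝ)
    (fun z hz => (hball z (hseg hz)).1.1.2) hbound (convex_segment y' y)
    (left_mem_segment ℝ y' y) (right_mem_segment ℝ y' y)
  rw [hfy', sub_zero] at hmv
  have h4 : ‖y - y'‖ ≤ C * ‖g y‖ := by rwa [norm_sub_rev]
  calc f y ≤ ‖f y‖ := Real.le_norm_self _
    _ ≤ M * ‖y - y'‖ * ‖y - y'‖ := hmv
    _ = M * ‖y - y'‖ ^ 2 := by ring
    _ ≤ M * (C * ‖g y‖) ^ 2 :=
        mul_le_mul_of_nonneg_left (pow_le_pow_left₀ (norm_nonneg _) h4 2) M.coe_nonneg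
    _ = M * C ^ 2 * ‖g y‖ ^ 2 := by ring

end Vale.Agent.P281.H368.GM
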