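import Vale.Agent.P281.H368.GM.K4
import Vale.Agent.P281.H787.KLim

/-! P281, GM-K, part 5: the local bound on `X`. -/

open scoped Manifold ContDiff Topology ComplexOrder
open Set Filter Vale.Agent.P281.J Vale.Agent.P272.K Vale.Agent.P299

noncomputable section

namespace Vale.Agent.P281.H368.GM

open Vale.Agent.P281.H167.GM Vale.Agent.P272.K.INT Vale.Agent.P299.H223
open Vale.Agent.P281.H713.SA Vale.Agent.P281.H949.SA
open Vale.Agent.P281.H564 (Rep)

variable {n : ℕ} {X : Type} [TopologicalSpace X] [ChartedSpace (Cm n) X]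
  [IsManifold 𝓘(ℂ, Cm n) ω X] {m N ν : ℕ} {S : Fin N → X → ℂ} {φ : Chart n X → Cm n → ℝ}
  {ρ : X → ℝ} {θ β : D.FormM n X}

/-- `m θ` is the Fubini–Study form of the coefficients of the sections -/
lemma theta_coef (hS : IsMoving n m S) (hφ : IsCanonicalMetric φ) (hρ : SmoothFn (n := n) ρ)
    (hρS : ∀ x, ρ x = 0 ↔ ∀ b, S b x = 0)
    (hθφ : ∀ e x, At e x → 0 < ρ x → θ e (e x) = cHess (phiD φ m ρ 0 e) (e x))
    (hρH : ∀ e x, At e x → ρ x * Real.exp (m * φ e (e x)) = nsq (coef m S e (e x)))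
    (e : Chart n X) (x : X) (hx : At e x) (hρx : 0 < ρ x) :
    θ e (e x) = (((m : ℝ)⁻¹ : ℝ) : ℂ) • fsM (coef m S e) (e x) := by
  have hm : (m : ℝ) ≠ 0 := by exact_mod_cast hS.pos.ne'
  have hb : ∃ b, S b x ≠ 0 := by
    by_contra hcon
    push Not at hcon
    exact hρx.ne' ((hρS x).2 hcon)
  obtain ⟨b, hb⟩ := hb
  have h0 : coef m S e (e x) ≠ 0 := by
    intro h0
    have h7 := congrFun h0 b
    simp only [coef, Pi.zero_apply, div_eq_zero_iff, hx.left_inv] at h7
    rcases h7 with h7 | h7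
    · exact hb h7
    · exact pow_ne_zero m (dj_ne_zero hx) h7
  have hcf : ContDiffAt ℂ ω (coef m S e) (e x) := coef_holo hS.sec hx
  have hρe : ∀ᶠ z in 𝓝 (e x), 0 < ρ (e.symm z) := by
    have h1 : ContinuousAt (fun z => ρ (e.symm z)) (e x) := (hρ e x hx).continuousAt
    exact h1.eventually (lt_mem_nhds (by simpa only [hx.left_inv] using hρx))
  have h1 : phiD φ m ρ 0 e =ᶠ[𝓝 (e x)] fun z => (m : ℝ)⁻¹ * Real.log (nsq (coef m S e z)) := by
    filter_upwards [hx.nhds_target, hρe] with z hz hz2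
    have h2 := hρH e (e.symm z) (At.of_target hx.1 hz)
    rw [e.right_inv hz] at h2
    rw [← h2, Real.log_mul hz2.ne' (Real.exp_pos _).ne', Real.log_exp, phiD, add_zero]
    field_simp
    ring
  rw [hθφ e x hx hρx, cHess_congr h1, cHess_const_mul _
    ((smooth_log_nsq hcf h0).of_le (by norm_cast))]
  rfl

omit [IsManifold 𝓘(ℂ, Cm n) ω X] in
lemma holAt_div {f g : X → ℂ} {x : X} (hf : HolAt (Cm n) f x) (hg : HolAt (Cm n) g x)
    (h0 : g x ≠ 0) : HolAt (Cm n) (fun z => f z / g z) x := by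
  have h1 : ContMDiffAt 𝓘(ℂ, Cm n) 𝓘(ℂ, ℂ) ω (fun z => (g z)⁻¹) x :=
    ContMDiffAt.comp x (g := fun w : ℂ => w⁻¹) (contDiffAt_inv ℂ h0).contMDiffAt hg
  have h2 : (fun z => f z / g z) = fun z => f z * (g z)⁻¹ := funext fun z => div_eq_mul_inv _ _
  rw [h2]
  exact ContMDiffAt.mul hf h1

/-- **the local bound** -/
theorem exists_local_bound [ConnectedSpace X] (hS : IsMoving n m S) (hφ : IsCanonicalMetric φ)
    (hρ : SmoothFn (n := n) ρ) (hρ0 : ∀ x, 0 ≤ ρ x) (hρS : ∀ x, ρ x = 0 ↔ ∀ b, S b x = 0)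
    (hθ : IsClosedForm θ) (hβ : IsClosedForm β)
    (hθp : ∀ e x, At e x → (θ e (e x)).PosSemidef) (hβp : ∀ e x, At e x → (β e (e x)).PosSemidef)
    (hθφ : ∀ e x, At e x → 0 < ρ x → θ e (e x) = cHess (phiD φ m ρ 0 e) (e x))
    (hρH : ∀ e x, At e x → ρ x * Real.exp (m * φ e (e x)) = nsq (coef m S e (e x)))
    (hν : ∀ e x, At e x → (θ e (e x)).rank ≤ ν) (hdeg : IsDegFix n m ν S β) (x : X) :
    ∃ C : ℝ, ∀ᶠ z in 𝓝 ((chartAt (Cm n) x : Chart n X) x),
      0 < ρ ((chartAt (Cm n) x : Chart n X).symm z) →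
      Qf n ν (β (chartAt (Cm n) x) z) (θ (chartAt (Cm n) x) z)
        (dd (fun y => Real.log (ρ ((chartAt (Cm n) x : Chart n X).symm y))) z) ≤ C := by
  set e : Chart n X := chartAt (Cm n) x with he
  have hx : At e x := atc x
  have hβs : ∀ i j, ContDiffAt ℝ ∞ (fun z => β e z i j) (e x) := hβ.smooth e x hx
  have hθs : ∀ i j, ContDiffAt ℝ ∞ (fun z => θ e z i j) (e x) := hθ.smooth e x hx
  have hpos : ∀ᶠ z in 𝓝 (e x), (β e z).PosSemidef ∧ (θ e z).PosSemidef ∧ (θ e z).rank ≤ ν := by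
    filter_upwards [hx.nhds_target] with z hz
    have hzA : At e (e.symm z) := At.of_target hx.1 hz
    have h1 := hβp e _ hzA
    have h2 := hθp e _ hzA
    have h3 := hν e _ hzA
    rw [e.right_inv hz] at h1 h2 h3
    exact ⟨h1, h2, h3⟩
  have hρs : ContDiffAt ℝ ∞ (fun z => ρ (e.symm z)) (e x) := hρ e x hx
  rcases (hρ0 x).lt_or_eq with hρx | hρx
  · have hd : ∀ k, ContDiffAt ℝ ∞ (fun z => dd (fun y => Real.log (ρ (e.symm y))) z k) (e x) := by
      intro k
      have h1 : ContDiffAt ℝ ∞ (fun y => Real.log (ρ (e.symm y))) (e x) :=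
        hρs.log (by rw [hx.left_inv]; exact hρx.ne')
      exact INT.smooth_dz (INT.ofReal_contDiffAt h1)
    have hQ : ContinuousAt (fun z => Qf n ν (β e z) (θ e z)
        (dd (fun y => Real.log (ρ (e.symm y))) z)) (e x) :=
      (contDiffAt_Qf hβs hθs hd).continuousAt
    refine ⟨|Qf n ν (β e (e x)) (θ e (e x)) (dd (fun y => Real.log (ρ (e.symm y))) (e x))| + 1, ?_⟩
    have hev := hQ.eventually (gt_mem_nhds (lt_of_le_of_lt (le_abs_self _) (lt_add_one _)))
    exact hev.mono fun z hz _ => hz.le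
  · have hf := Vale.Agent.P281.H564.frequently_ne hS.sec hS.ne
    obtain ⟨r, g, a, H, hg, hH, ⟨b₀, hb₀⟩, hev⟩ := hdeg x ((hρS x).1 hρx.symm)
    -- the normalized representation
    have hrep : Rep (n := n) S b₀ (fun b z => H b z / H b₀ z) x := by
      refine ⟨fun b => holAt_div (hH b) (hH b₀) hb₀, ?_⟩
      filter_upwards [hev, (Vale.Agent.P281.H564.holAt_continuousAt (hH b₀)).eventually_ne hb₀]
        with z hz hz2 b
      rw [hz.1 b, hz.1 b₀]
      field_simp
    have hHev : ∀ᶠ y in 𝓝 x, ∀ b, HolAt (Cm n) (H b) y :=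
      eventually_all.2 fun b => Vale.Agent.P281.H564.holAt_eventually (hH b)
    have hgev : ∀ᶠ y in 𝓝 x, ∀ i, HolAt (Cm n) (g i) y :=
      eventually_all.2 fun i => Vale.Agent.P281.H564.holAt_eventually (hg i).1
    have hGs : ∀ i, ContDiffAt ℂ ω (fun z => g i (e.symm z)) (e x) := fun i =>
      Vale.Agent.P281.H564.holAt_chart hx (hg i).1
    have hG' : ∀ i, fderiv ℂ (fun z => g i (e.symm z)) (e x) ≠ 0 := by
      intro i h0
      apply (hg i).2
      ext1 v
      rw [Vale.Agent.P281.H787.dif_eq hx (hg i).1, h0]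
      rfl
    have hHs : ContDiffAt ℂ ω (fun z b => H b (e.symm z)) (e x) :=
      contDiffAt_pi.2 fun b => Vale.Agent.P281.H564.holAt_chart hx (hH b)
    have hH0 : (fun b => H b (e.symm (e x))) ≠ 0 := by
      intro h
      exact hb₀ (by have := congrFun h b₀; rwa [hx.left_inv] at this)
    -- the smooth factor
    set E : Cm n → ℝ := fun z => nsq (fun b => H b (e.symm z)) * Real.exp (-(m * φ e z)) with hE
    have hEs : ContDiffAt ℝ 2 E (e x) :=
      ((smooth_nsq hHs).of_le (by norm_cast)).mul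
        ((contDiffAt_const.mul ((hφ.smooth e x hx).of_le (by norm_cast))).neg.exp)
    have hE0 : 0 < E (e x) := mul_pos (nsq_pos hH0) (Real.exp_pos _)
    have hR : ∀ᶠ z in 𝓝 (e x), ρ (e.symm z) = ‖∏ i, g i (e.symm z) ^ a i‖ ^ 2 * E z := by
      filter_upwards [hx.nhds_target, (Vale.Agent.P281.H564.tendsto_symm hx).eventually hev]
        with z hz hz2
      have hzA : At e (e.symm z) := At.of_target hx.1 hz
      have h2 := hρH e (e.symm z) hzA
      rw [e.right_inv hz] at h2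
      have h3 : coef m S e z = (∏ i, g i (e.symm z) ^ a i) • fun b => H b (e.symm z) := by
        funext b
        rw [coef, hz2.1 b, Pi.smul_apply, smul_eq_mul]
        exact mul_div_cancel_right₀ _ (pow_ne_zero m (dj_ne_zero hzA))
      rw [h3, nsq_smul] at h2
      rw [hE]
      simp only
      rw [← mul_assoc, ← h2, mul_assoc, ← Real.exp_add, add_neg_cancel, Real.exp_zero, mul_one]
    refine local_bound hβs hθs hpos hGs hG' hEs hE0 hR ?_
    have h5 : ∀ᶠ y in 𝓝 x, Rep (n := n) S b₀ (fun b z => H b z / H b₀ z) y := hrep.eventually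
    filter_upwards [hx.nhds_target, (Vale.Agent.P281.H564.tendsto_symm hx).eventually
      (hev.and (h5.and (hHev.and (hgev.and
        ((Vale.Agent.P281.H564.holAt_continuousAt (hH b₀)).eventually_ne hb₀))))), hpos]
      with z hz hz2 hz3 i hgi
    obtain ⟨hz4, hz5, hz6, hz7, hz8⟩ := hz2
    have hzA : At e (e.symm z) := At.of_target hx.1 hz
    have hrz : e (e.symm z) = z := e.right_inv hz
    have h6 := Vale.Agent.P281.H564.theta_eq hθ hρS hρ0 hS.sec hf
      (theta_coef hS hφ hρ hρS hθφ hρH) hzA hz5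
    have hHz : ContDiffAt ℂ ω (fun z b => H b (e.symm z)) (e (e.symm z)) :=
      contDiffAt_pi.2 fun b => Vale.Agent.P281.H564.holAt_chart hzA (hz6 b)
    have h7 : fsM (fun z b => H b (e.symm z) / H b₀ (e.symm z)) (e (e.symm z)) =
        fsM (fun z b => H b (e.symm z)) (e (e.symm z)) := by
      refine (fsM_congr hHz (hz5.chart hzA) ?_ ?_ ?_).symm
      · intro h
        have := congrFun h b₀
        rw [hzA.left_inv] at this
        exact hz8 this
      · simpa only [hzA.left_inv] using hz5.ne (hf _)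
      · have h8 : ContinuousAt (fun z => H b₀ (e.symm z)) (e (e.symm z)) :=
          (Vale.Agent.P281.H564.holAt_chart hzA (hz6 b₀)).continuousAt
        filter_upwards [h8.eventually_ne (by rw [hzA.left_inv]; exact hz8)] with y hy
        refine ⟨H b₀ (e.symm y), ?_⟩
        funext b
        rw [Pi.smul_apply, smul_eq_mul, mul_div_cancel₀ _ hy]
    rw [h7] at h6
    have h9 := Qf_zero_of_deg (ν := ν) hβ.form hzA (by rw [hrz]; exact hz3.1)
      (by rw [hrz]; exact hz3.2.1) (by rw [hrz]; exact hz3.2.2) hz6 ⟨b₀, hz8⟩ (hz7 i) h6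
      (hz4.2 i hgi)
    rw [hrz] at h9
    exact h9

end Vale.Agent.P281.H368.GM
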