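import Vale.Agent.P281.H368.GM.K5
import Vale.Agent.P281.H227.GMC

/-! P281, GM-K, part 6: the growth estimate. -/

open scoped Manifold ContDiff Topology ComplexOrder
open Set Filter Vale.Agent.P281.J Vale.Agent.P272.K Vale.Agent.P272.K.AMP Vale.Agent.P299

noncomputable section

namespace Vale.Agent.P281.H368.GM

open Vale.Agent.P281.H167.GM Vale.Agent.P299.H223
open Vale.Agent.P281.H713.SA Vale.Agent.P281.H949.SA
open Vale.Agent.P272.K.INT (intX IsClosedForm IsDensity lag)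
open Vale.Agent.P299.H882 (J)

section gen

variable {n : ℕ}

lemma le_of_frequently {f g : Cm n → ℝ} {p : Cm n} (hf : ContinuousAt f p) (hg : ContinuousAt g p)
    (h : ∃ᶠ z in 𝓝 p, f z ≤ g z) : f p ≤ g p := by
  by_contra hcon
  push Not at hcon
  exact h ((hg.eventually_lt hf hcon).mono fun z hz => not_le.2 hz)

lemma exists_poly_lag (T : Fin (n + 1) → ℝ) : ∃ p : Polynomial ℝ, p.natDegree ≤ n ∧
    ∀ s : ℝ, p.eval s = ∑ j : Fin (n + 1), lag n j s * T j := by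
  have hinj : Set.InjOn (fun i : Fin (n + 1) => (i : ℝ)) (Finset.univ : Finset (Fin (n + 1))) := by
    intro i _ j _ h
    simp only at h
    exact Fin.ext (by exact_mod_cast h)
  refine ⟨∑ j : Fin (n + 1), Polynomial.C (T j) *
    Lagrange.basis (Finset.univ : Finset (Fin (n + 1))) (fun i => (i : ℝ)) j, ?_, fun s => ?_⟩
  · refine Polynomial.natDegree_sum_le_of_forall_le _ _ fun j _ => ?_
    refine (Polynomial.natDegree_C_mul_le _ _).trans ?_
    have h1 := Lagrange.degree_basis hinj (Finset.mem_univ j)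
    rw [Finset.card_univ, Fintype.card_fin, Nat.add_sub_cancel] at h1
    exact Polynomial.natDegree_le_of_degree_le h1.le
  · rw [Polynomial.eval_finsetSum]
    refine Finset.sum_congr rfl fun j _ => ?_
    rw [Polynomial.eval_mul, Polynomial.eval_C, mul_comm]
    rfl

end gen

variable {n : ℕ} {X : Type} [TopologicalSpace X] [ChartedSpace (Cm n) X]
  [IsManifold 𝓘(ℂ, Cm n) ω X] {m N ν : ℕ} {S : Fin N → X → ℂ} {φ : Chart n X → Cm n → ℝ}
  {ρ : X → ℝ} {θ β χ : D.FormM n X}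

/-- the form `Bd` off the base locus -/
lemma Bd_eq (hm : 0 < m) (hφ : IsCanonicalMetric φ) (hρ : SmoothFn (n := n) ρ) {δ : ℝ}
    (hδ : 0 < δ) {e : Chart n X} {x : X} (hx : At e x) (hρx : 0 < ρ x)
    (hθφ : θ e (e x) = cHess (phiD φ m ρ 0 e) (e x)) :
    Bd φ m ρ θ δ e (e x) = (((m : ℝ)⁻¹ * (δ * ρ x / (ρ x + δ) ^ 2) : ℝ) : ℂ) •
      rk1 (dd (fun y => Real.log (ρ (e.symm y))) (e x)) := by
  have hφ2 : ContDiffAt ℝ 2 (φ e) (e x) := (hφ.smooth e x hx).of_le (by norm_cast)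
  have hρ2 : ContDiffAt ℝ 2 (fun y => ρ (e.symm y)) (e x) := (hρ e x hx).of_le (by norm_cast)
  have hpos : 0 < ρ (e.symm (e x)) := by rwa [hx.left_inv]
  have hgen : ∀ t : ℝ, 0 ≤ t → cHess (phiD φ m ρ t e) (e x) = cHess (φ e) (e x) +
      (((m : ℝ)⁻¹ : ℝ) : ℂ) • (((ρ x / (ρ x + t) : ℝ) : ℂ) •
        cHess (fun y => Real.log (ρ (e.symm y))) (e x) +
        ((t * ρ x / (ρ x + t) ^ 2 : ℝ) : ℂ) • rk1 (dd (fun y => Real.log (ρ (e.symm y))) (e x))) := by
    intro t ht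
    have h1 : ContDiffAt ℝ 2 (fun y => Real.log (ρ (e.symm y) + t)) (e x) :=
      (hρ2.add contDiffAt_const).log (by linarith)
    have h2 : ContDiffAt ℝ 2 (fun y => (m : ℝ)⁻¹ * Real.log (ρ (e.symm y) + t)) (e x) :=
      contDiffAt_const.mul h1
    have h3 := cHess_log_add hρ2 hpos ht
    rw [hx.left_inv] at h3
    rw [← h3, ← C2.cHess_const_mul _ h1, ← C2.cHess_add hφ2 h2]
    rfl
  have h0 := hgen 0 le_rfl
  rw [add_zero, div_self hρx.ne', zero_mul, zero_div, Complex.ofReal_one, one_smul,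
    Complex.ofReal_zero, zero_smul, add_zero] at h0
  have hsum : ρ x + δ ≠ 0 := by linarith
  unfold Bd
  rw [hx.left_inv, hgen δ hδ.le, hθφ, h0]
  set P := cHess (φ e) (e x)
  set H := cHess (fun y => Real.log (ρ (e.symm y))) (e x)
  set K := rk1 (dd (fun y => Real.log (ρ (e.symm y))) (e x))
  ext i j
  simp only [Matrix.sub_apply, Matrix.add_apply, Matrix.smul_apply, smul_eq_mul]
  have h1 : (δ / (ρ x + δ) : ℝ) = 1 - ρ x / (ρ x + δ) := by field_simp; ring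
  rw [h1]
  push_cast
  ring

/-- the density `F_a` -/
def DF (a : ℕ) (φ : Chart n X → Cm n → ℝ) (m : ℕ) (ρ : X → ℝ) (β θ : D.FormM n X) (δ : ℝ) :
    Chart n X → Cm n → ℝ :=
  fun e z => Fa n a (β e z) (θ e z) (Bd φ m ρ θ δ e z)

lemma isDensity_DF (a : ℕ) (hφ : IsCanonicalMetric φ) (hρ : SmoothFn (n := n) ρ)
    (h0 : ∀ x, 0 ≤ ρ x) (hθ : IsClosedForm θ) (hβ : IsClosedForm β) {δ : ℝ} (hδ : 0 < δ) :
    IsDensity (DF a φ m ρ β θ δ) := by
  unfold DF Fa
  refine INT.IsDensity.sum Finset.univ (D := fun (l : Fin (n + 1)) e z => cw n a l *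
    mixD (β e z + (((l : ℕ) : ℝ) : ℂ) • θ e z) (Bd φ m ρ θ δ e z)) fun l _ => ?_
  refine INT.IsDensity.const_mul ?_ _
  have hc := isClosed_addF hβ hθ (((l : ℕ) : ℝ))
  exact Vale.Agent.P281.H787.isDensity_mixD hc.form
    (Vale.Agent.P281.H787.isForm_Bd hφ hρ h0 hθ hδ) hc.smooth
    fun e x hx i j => Vale.Agent.P281.H787.smooth_Bd hφ hρ h0 hθ hδ e x hx i j

lemma intX_DF [T2Space X] [CompactSpace X] (a : ℕ) (hφ : IsCanonicalMetric φ)
    (hρ : SmoothFn (n := n) ρ) (h0 : ∀ x, 0 ≤ ρ x) (hθ : IsClosedForm θ) (hβ : IsClosedForm β)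
    {δ : ℝ} (hδ : 0 < δ) : intX (DF a φ m ρ β θ δ) =
      ∑ l : Fin (n + 1), cw n a l * mixX (addF β ((l : ℕ) : ℝ) θ) (Bd φ m ρ θ δ) := by
  have h1 : ∀ l : Fin (n + 1), IsDensity (fun (e : Chart n X) z =>
      mixD (addF β ((l : ℕ) : ℝ) θ e z) (Bd φ m ρ θ δ e z)) := by
    intro l
    have hc := isClosed_addF hβ hθ (((l : ℕ) : ℝ))
    exact Vale.Agent.P281.H787.isDensity_mixD hc.form
      (Vale.Agent.P281.H787.isForm_Bd hφ hρ h0 hθ hδ) hc.smooth
      fun e x hx i j => Vale.Agent.P281.H787.smooth_Bd hφ hρ h0 hθ hδ e x hx i j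
  have h2 := INT.intX_sum Finset.univ (D := fun (l : Fin (n + 1)) (e : Chart n X) z => cw n a l *
    mixD (addF β ((l : ℕ) : ℝ) θ e z) (Bd φ m ρ θ δ e z)) fun l _ => (h1 l).const_mul _
  have h3 : intX (DF a φ m ρ β θ δ) = intX (fun (e : Chart n X) z => ∑ l : Fin (n + 1), cw n a l *
    mixD (addF β ((l : ℕ) : ℝ) θ e z) (Bd φ m ρ θ δ e z)) := rfl
  rw [h3, h2]
  exact Finset.sum_congr rfl fun l _ => INT.intX_const_mul _ _

end Vale.Agent.P281.H368.GM
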